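import Vale.Agent.P237.Petty.Cor.MillsUp
import Vale.Agent.P237.Petty.Cor.Bridge
import Vale.Agent.P237.Petty.Cor.Top.Bounds

/-!
# P237: scalar bounds for middle orders

The stationary constant for `19 ≤ p + 1 ≤ 98`, a rational lower bound of the mass of the circle
above an abscissa, sharp at both ends of `√(p + 3) u`, and the bound of `1 / r` it gives from any
base below the abscissa.
-/

namespace Vale.Agent.P237.Petty.Cor.Mid50

open MeasureTheory Set intervalIntegral
open Ident (half rate)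
open Lift (circLow circHigh)

variable {p : ℕ}

/-- The stationary constant for middle orders. -/
theorem muMin_bounds (hp : 18 ≤ p) (hp' : p ≤ 97) :
    3 / 4 - 14 / 5 / ((p : ℝ) + 1) ≤ Ident.muMin p ∧
      Ident.muMin p ≤ 3 / 4 - 229 / 100 / ((p : ℝ) + 1) := by
  obtain ⟨j, rfl⟩ : ∃ j, p = j + 1 := ⟨p - 1, by omega⟩
  have hj : (17 : ℝ) ≤ j := by
    have : 17 ≤ j := by omega
    exact_mod_cast this
  have hj' : (j : ℝ) ≤ 96 := by
    have : j ≤ 96 := by omega
    exact_mod_cast this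
  have hb := Ident.b0_pos (j + 1)
  have h1 := (b0_sq_bounds (j + 1)).1
  have h2 := LargeN.ratSq_succ_le j
  rw [Centre.ratSq_eq, LargeN.low, div_div_eq_mul_div, div_pow, div_mul_eq_mul_div, div_div,
    le_div_iff₀ (by positivity)] at h2
  rw [div_le_iff₀ (by positivity)] at h1
  push_cast at h1 h2 ⊢
  set B := Ident.b0 (j + 1) ^ 2 with hB
  have hB0 : 0 < B := by positivity
  have e : Ident.muMin (j + 1) =
      ((j : ℝ) + 3) * ((j : ℝ) + 1) * (((j : ℝ) + 5) * (1 - B) - 1) / (2 * ((j : ℝ) + 5) * B) := by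
    rw [Ident.muMin, hB]
    push_cast
    field_simp
    ring
  obtain ⟨k, hk, hjk⟩ : ∃ k : ℝ, 0 ≤ k ∧ (j : ℝ) = k + 17 := ⟨(j : ℝ) - 17, by linarith, by ring⟩
  have hk' : k ≤ 79 := by linarith
  rw [e]
  clear_value B
  rw [hjk] at h1 h2 ⊢
  constructor
  · rw [le_div_iff₀ (by positivity), sub_mul, div_mul_eq_mul_div _ (k + 17 + 1 + 1),
      sub_le_iff_le_add, ← sub_le_iff_le_add', le_div_iff₀ (by positivity)]
    nlinarith [mul_le_mul_of_nonneg_left h2 hk, mul_le_mul_of_nonneg_left h2 (mul_nonneg hk hk),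
      mul_le_mul_of_nonneg_left h2 (mul_nonneg (mul_nonneg hk hk) hk)]
  · rw [div_le_iff₀ (by positivity), sub_mul, div_mul_eq_mul_div _ (k + 17 + 1 + 1),
      le_sub_iff_add_le, ← le_sub_iff_add_le', div_le_iff₀ (by positivity)]
    nlinarith [mul_le_mul_of_nonneg_left h1 hk, mul_le_mul_of_nonneg_left h1 (mul_nonneg hk hk),
      mul_le_mul_of_nonneg_left h1 (mul_nonneg (mul_nonneg hk hk) hk)]

/-- The rational factor of the mass above an abscissa, at `x = √(p + 3) u`. -/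
noncomputable def millsRat (x : ℝ) : ℝ := (x + 5 / 4) / (x ^ 2 + 29 / 20 * x + 21 / 20)

theorem millsRat_pos {x : ℝ} (hx : 0 ≤ x) : 0 < millsRat x := by
  unfold millsRat; positivity

/-- The differential inequality of the factor. -/
theorem millsRat_ineq {x M : ℝ} (hM : 0 < M) (hx : 0 ≤ x) :
    x * millsRat x + (1 - x ^ 2 / M) * ((x ^ 2 + 5 / 2 * x + (29 / 20 * (5 / 4) - 21 / 20)) /
      (x ^ 2 + 29 / 20 * x + 21 / 20) ^ 2) ≤ 1 := by
  have hN : 0 < x ^ 2 + 29 / 20 * x + 21 / 20 := by positivity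
  have hP : 0 ≤ x ^ 2 + 5 / 2 * x + (29 / 20 * (5 / 4) - 21 / 20) := by nlinarith [sq_nonneg x]
  refine (add_le_add le_rfl (mul_le_of_le_one_left (div_nonneg hP (sq_nonneg _))
    (show 1 - x ^ 2 / M ≤ 1 by linarith [div_nonneg (sq_nonneg x) hM.le]))).trans ?_
  rw [millsRat, mul_div_assoc', div_add_div _ _ hN.ne' (pow_pos hN 2).ne', div_le_one (by positivity)]
  have key : 0 ≤ (x ^ 2 + 29 / 20 * x + 21 / 20) ^ 2 -
      x * (x + 5 / 4) * (x ^ 2 + 29 / 20 * x + 21 / 20) -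
      (x ^ 2 + 5 / 2 * x + (29 / 20 * (5 / 4) - 21 / 20)) := by
    nlinarith [mul_nonneg hx (sq_nonneg (x - 7 / 10)), sq_nonneg (x - 7 / 10)]
  have := mul_nonneg hN.le key
  linear_combination this

/-- The mass above `u`, from below. -/
theorem circHigh_ge_rat {s : ℝ} (hs : s ∈ Icc (0 : ℝ) 1) :
    arc s ^ (p + 3) * (millsRat (√((p : ℝ) + 3) * s) / √((p : ℝ) + 3)) ≤ circHigh p s := by
  set k := √((p : ℝ) + 3) with hk
  have hk0 : 0 < k := Real.sqrt_pos.2 (by positivity)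
  have hk2 : k ^ 2 = (p : ℝ) + 3 := Real.sq_sqrt (by positivity)
  have hc : Continuous fun u => arc u ^ (p + 1) := continuous_arc.pow _
  have hF : ContinuousOn (fun u => -(arc u ^ (p + 3) * (millsRat (k * u) / k))) (Icc s 1) := by
    refine ((continuous_arc.pow _).continuousOn.mul (ContinuousOn.div_const ?_ _)).neg
    unfold millsRat
    refine ContinuousOn.div (by fun_prop) (by fun_prop) fun u hu => ?_
    have : 0 ≤ k * u := mul_nonneg hk0.le (hs.1.trans hu.1)
    positivity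
  have h := sub_le_integral_of_hasDeriv_right_of_le
    (g' := fun u => arc u ^ (p + 1) * ((k * u) * millsRat (k * u) + (1 - u ^ 2) *
      (((k * u) ^ 2 + 5 / 2 * (k * u) + (29 / 20 * (5 / 4) - 21 / 20)) /
        ((k * u) ^ 2 + 29 / 20 * (k * u) + 21 / 20) ^ 2)))
    (φ := fun u => arc u ^ (p + 1)) hs.2 hF (fun u hu => ?_) (hc.integrableOn_Icc) fun u hu => ?_
  · simp only [circHigh, neg_sub_neg] at h ⊢
    simpa [arc] using h
  · have hu0 : 0 < 1 - u ^ 2 := by nlinarith [hu.1, hu.2, hs.1]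
    have hku : 0 ≤ k * u := mul_nonneg hk0.le (hs.1.trans hu.1.le)
    have h2 : arc u ^ 2 = 1 - u ^ 2 := Real.sq_sqrt hu0.le
    have hd : HasDerivAt (fun y => millsRat (k * y) / k)
        (-(((k * u) ^ 2 + 5 / 2 * (k * u) + (29 / 20 * (5 / 4) - 21 / 20)) /
          ((k * u) ^ 2 + 29 / 20 * (k * u) + 21 / 20) ^ 2)) u := by
      unfold millsRat
      have hl := (hasDerivAt_id' u).const_mul k
      refine (((hl.add_const (5 / 4)).div (((hl.pow 2).add (hl.const_mul (29 / 20))).add_const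
        (21 / 20)) (by simp only [Pi.add_apply, Pi.pow_apply]; positivity)).div_const k).congr_deriv ?_
      simp only [Pi.add_apply, Pi.pow_apply]
      push_cast
      field_simp
      ring
    refine (((hasDerivAt_arc_pow (p + 2) (s := u) ⟨by linarith [hu.1, hs.1], hu.2⟩).mul hd
      ).neg.congr_deriv ?_).hasDerivWithinAt
    rw [show arc u ^ (p + 2 + 1) = arc u ^ (p + 1) * (1 - u ^ 2) by rw [← h2]; ring]
    push_cast
    have e : (k * u) * millsRat (k * u) = ((p : ℝ) + 3) * u * (millsRat (k * u) / k) := by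
      rw [← hk2]; field_simp
    rw [e]
    field_simp
    ring
  · refine mul_le_of_le_one_right (pow_nonneg (Real.sqrt_nonneg _) _) ?_
    have hku : 0 ≤ k * u := mul_nonneg hk0.le (hs.1.trans hu.1.le)
    have h3 := millsRat_ineq (pow_pos hk0 2) hku
    rwa [show (k * u) ^ 2 / k ^ 2 = u ^ 2 by field_simp] at h3

/-- The powers of the half circle at a base, in `U = √(p + 3) u`. -/
theorem base_bounds {u : ℝ} (hu : 0 ≤ u) (hU : √((p : ℝ) + 3) * u ≤ 1) :
    (1 - (√((p : ℝ) + 3) * u) ^ 2 / 2 + ((√((p : ℝ) + 3) * u) ^ 2 / 2) ^ 2 / 2 -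
        ((√((p : ℝ) + 3) * u) ^ 2 / 2) ^ 3 / 6) ≤ arc u ^ (p + 1) ∧
      √((p : ℝ) + 3) * u * (1 - (√((p : ℝ) + 3) * u) ^ 2 / 6) ≤
        √((p : ℝ) + 3) * circLow p u := by
  set k := √((p : ℝ) + 3) with hk
  have hk0 : 0 < k := Real.sqrt_pos.2 (by positivity)
  have hk2 : k ^ 2 = (p : ℝ) + 3 := Real.sq_sqrt (by positivity)
  have hp0 : (0 : ℝ) ≤ p := Nat.cast_nonneg p
  have low : ∀ v ∈ Icc (0 : ℝ) u, Real.exp (-((k * v) ^ 2 / 2)) ≤ arc v ^ (p + 1) := by
    intro v hv
    have hv1 : (k * v) ^ 2 ≤ 1 :=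
      pow_le_one₀ (mul_nonneg hk0.le hv.1) ((mul_le_mul_of_nonneg_left hv.2 hk0.le).trans hU)
    rw [mul_pow, hk2] at hv1
    have hvs : v < 1 := by nlinarith [hv.1]
    have h0 : 0 < 1 - v ^ 2 := by nlinarith [hv.1]
    have h := inv_arc_pow_le (p := p) (s := v) ⟨by linarith [hv.1], hvs⟩
    have hpos : 0 < arc v ^ (p + 1) := pow_pos (arc_pos ⟨by linarith [hv.1], hvs⟩) _
    rw [div_le_iff₀ hpos] at h
    refine le_of_mul_le_mul_left ?_ (Real.exp_pos (((p : ℝ) + 1) * v ^ 2 / (2 * (1 - v ^ 2))))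
    refine le_trans ?_ h
    rw [← Real.exp_add]
    refine Real.exp_le_one_iff.2 ?_
    rw [mul_pow, hk2, ← sub_eq_add_neg, sub_nonpos, div_le_div_iff₀ (by positivity) two_pos]
    nlinarith [mul_nonneg (sq_nonneg v) (sub_nonneg.2 hv1)]
  constructor
  · refine le_trans ?_ (low u ⟨hu, le_rfl⟩)
    set w := (k * u) ^ 2 / 2 with hw
    have hw0 : 0 ≤ w := by positivity
    have hw1 : w ≤ 1 := by
      have := pow_le_one₀ (n := 2) (mul_nonneg hk0.le hu) hU
      linarith
    have hb := Real.exp_bound' hw0 hw1 (n := 4) (by norm_num)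
    simp only [Finset.sum_range_succ, Finset.sum_range_zero] at hb
    norm_num at hb
    rw [Real.exp_neg, le_inv_comm₀ ?_ (Real.exp_pos w)]
    · refine hb.trans ?_
      rw [← one_div, le_div_iff₀ (by nlinarith [sq_nonneg (w - 1)])]
      nlinarith [pow_nonneg hw0 4, pow_nonneg hw0 3, mul_nonneg (pow_nonneg hw0 4) (sub_nonneg.2 hw1)]
    · nlinarith [sq_nonneg (w - 1)]
  · have hi : ∀ v ∈ Icc (0 : ℝ) u, 1 - k ^ 2 / 2 * v ^ 2 ≤ arc v ^ (p + 1) := fun v hv => by
      refine le_trans ?_ (low v hv)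
      rw [show k ^ 2 / 2 * v ^ 2 = (k * v) ^ 2 / 2 by ring]
      linarith [Real.add_one_le_exp (-((k * v) ^ 2 / 2))]
    have hq : Continuous fun v : ℝ => 1 - k ^ 2 / 2 * v ^ 2 := by fun_prop
    have h := intervalIntegral.integral_mono_on (μ := volume) hu (hq.intervalIntegrable _ _)
      ((continuous_arc.pow (p + 1)).intervalIntegrable _ _) hi
    rw [intervalIntegral.integral_eq_sub_of_hasDerivAt (f := fun v => v - k ^ 2 / 6 * v ^ 3)
      (fun v _ => ((hasDerivAt_id' v).sub ((hasDerivAt_pow 3 v).const_mul (k ^ 2 / 6))).congr_deriv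
        (by push_cast; ring)) (hq.intervalIntegrable _ _)] at h
    refine le_of_eq_of_le ?_ (mul_le_mul_of_nonneg_left h hk0.le)
    ring

/-- The bound of `1 / r` from a base, through the rational factor. -/
theorem inv_rate_le_rat {ell s t a r q E H K U : ℝ} (h : FlatState p ell s t a r q)
    (h0 : 0 ≤ ell) (hE : Real.exp ell ≤ E) (hH : half (p + 1) * √((p : ℝ) + 3) ≤ H) (hU : 0 ≤ U) (hU1 : U ≤ 1)
    (hUs : U ≤ √((p : ℝ) + 3) * s) (hK0 : 0 ≤ K)
    (hK : E * H - U * (1 - U ^ 2 / 6) ≤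
      K * (1 - U ^ 2 / 2 + (U ^ 2 / 2) ^ 2 / 2 - (U ^ 2 / 2) ^ 3 / 6)) :
    (1 - s ^ 2) / r ≤ max E (K / millsRat (√((p : ℝ) + 3) * s)) := by
  set k := √((p : ℝ) + 3) with hk
  have hk0 : 0 < k := Real.sqrt_pos.2 (by positivity)
  have hs := h.state.s_mem
  have hr := h.state.rate_pos
  have hc := h.state.arc_pos'
  have h2 : arc s ^ 2 = 1 - s ^ 2 := Real.sq_sqrt (by nlinarith [hs.1, hs.2])
  set u := U / k with hu
  have hku : k * u = U := by rw [hu]; field_simp
  have hu0 : 0 ≤ u := div_nonneg hU hk0.le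
  have hus : u ≤ s := by rw [hu, div_le_iff₀ hk0]; linarith
  obtain ⟨hcu, hPu⟩ := base_bounds (p := p) hu0 (hku.trans_le hU1)
  rw [hku] at hcu hPu
  have hb := h.inv_rate_le_base_max (u := u) ⟨hu0, hus⟩
  have hcu0 : 0 < arc u ^ (p + 1) := pow_pos (arc_pos ⟨by linarith, hus.trans_lt hs.2⟩) _
  have hex := Real.exp_pos ell
  have hz1 : 1 - s ^ 2 ≤ 1 := by nlinarith
  have hz0 : 0 ≤ 1 - s ^ 2 := h2 ▸ sq_nonneg _
  have hE0 : 0 ≤ E := hex.le.trans hE
  rw [div_eq_mul_one_div]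
  refine (mul_le_mul_of_nonneg_left hb hz0).trans ?_
  rw [mul_max_of_nonneg _ _ hz0]
  refine max_le_max ((mul_le_of_le_one_left hex.le hz1).trans hE) ?_
  have hHs := circHigh_pos p ⟨hs.1.le, hs.2⟩
  have hlow0 : 0 ≤ circLow p u :=
    intervalIntegral.integral_nonneg hu0 fun v _ => pow_nonneg (Real.sqrt_nonneg _) _
  have hsum : circLow p u + circHigh p u = half (p + 1) :=
    intervalIntegral.integral_add_adjacent_intervals ((continuous_arc.pow _).intervalIntegrable _ _)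
      ((continuous_arc.pow _).intervalIntegrable _ _)
  have hn : k * (Real.exp ell * (circHigh p u + (1 - Real.exp (-ell)) * circLow p u)) ≤
      K * arc u ^ (p + 1) := by
    have e : Real.exp ell * (circHigh p u + (1 - Real.exp (-ell)) * circLow p u) =
        Real.exp ell * half (p + 1) - circLow p u := by
      rw [← hsum, Real.exp_neg]
      field_simp
      ring
    rw [e, mul_sub, mul_left_comm]
    refine le_trans ?_ (mul_le_mul_of_nonneg_left hcu hK0)
    refine le_trans (sub_le_sub (mul_le_mul hE ?_ (mul_nonneg hk0.le (Ident.half_pos _).le) hE0) hPu) hK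
    linarith
  have hm := circHigh_ge_rat (p := p) (s := s) (Ioo_subset_Icc_self hs)
  have hG := millsRat_pos (mul_nonneg hk0.le hs.1.le)
  rw [← hk] at hm
  rw [le_div_iff₀ hG, mul_div_assoc', div_mul_eq_mul_div, div_le_iff₀ (mul_pos hcu0 hHs)]
  have hm' : (1 - s ^ 2) * arc s ^ (p + 1) * millsRat (k * s) ≤ k * circHigh p s := by
    rw [← h2]
    have := mul_le_mul_of_nonneg_left hm hk0.le
    refine le_trans (le_of_eq ?_) this
    field_simp
    ring
  set X := Real.exp ell * (circHigh p u + (1 - Real.exp (-ell)) * circLow p u) with hX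
  have hX0 : 0 ≤ X := by
    have h1 : 0 ≤ circHigh p u := (circHigh_pos p ⟨hu0, hus.trans_lt hs.2⟩).le
    rw [hX]
    exact mul_nonneg hex.le (add_nonneg h1 (mul_nonneg
      (sub_nonneg.2 (Real.exp_le_one_iff.2 (neg_nonpos.2 h0))) hlow0))
  calc (1 - s ^ 2) * (Real.exp ell * arc s ^ (p + 1) *
        (circHigh p u + (1 - Real.exp (-ell)) * circLow p u)) * millsRat (k * s)
      = X * ((1 - s ^ 2) * arc s ^ (p + 1) * millsRat (k * s)) := by rw [hX]; ring
    _ ≤ X * (k * circHigh p s) := mul_le_mul_of_nonneg_left hm' hX0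
    _ = k * X * circHigh p s := by ring
    _ ≤ K * arc u ^ (p + 1) * circHigh p s := mul_le_mul_of_nonneg_right hn hHs.le
    _ = K * (arc u ^ (p + 1) * circHigh p s) := by ring

end Vale.Agent.P237.Petty.Cor.Mid50
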