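import Vale.Agent.P237.Petty.Cor.Mid50.Poly
import Vale.Agent.P237.Petty.Cor.Mid50.Bounds

/-!
# P237: the conditions on the constants of a cell for middle orders

The rational conditions are one Boolean, checked by evaluation; the polynomial claims are the
results of the kernel check on the box of each piece.
-/

namespace Vale.Agent.P237.Petty.Cor.Mid50

open Set P100.Bernstein

/-- A rational as a real number. -/
noncomputable def toReal (q : ℚ) : ℝ := q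

/-- The rational conditions on a piece. -/
def okPiece (d : Data) (P : Piece) : Bool :=
  decide (0 ≤ P.xa) && decide (P.xa ≤ P.xb) && decide (1 / d.mhi ≤ P.eh) &&
    (decide (1 / d.mlo ≤ P.eh) || decide (d.z2 ≤ P.eh * P.xa ^ 2)) &&
    decide (0 ≤ P.base) && decide (P.base ≤ 1) && decide (P.base ≤ P.xa) && decide (0 ≤ P.top) &&
    decide (d.ev * d.hk - P.base * (1 - P.base ^ 2 / 6) ≤
      P.top * (1 - P.base ^ 2 / 2 + (P.base ^ 2 / 2) ^ 2 / 2 - (P.base ^ 2 / 2) ^ 3 / 6)) &&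
    decide (0 ≤ P.w1) && decide (d.ev ≤ P.w0 + P.w1 * P.xa ^ 2) &&
    decide (0 ≤ P.lo0) && decide (0 ≤ P.lo1) && decide (0 ≤ P.hi0) && decide (0 ≤ P.hi1)

/-- The pieces follow each other from zero to beyond the end. -/
def okChain (z2 : ℚ) (mhi : ℕ) : ℚ → List Piece → Bool
  | a, [] => decide (z2 * mhi ≤ a ^ 2)
  | a, P :: L => decide (P.xa = a) && okChain z2 mhi P.xb L

/-- The rational conditions on the constants. -/
def okData (d : Data) : Bool :=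
  decide (19 ≤ d.mlo) && decide (d.mlo ≤ d.mhi) && decide (d.mhi ≤ 98) && decide (1 ≤ d.hk) &&
    decide (157085 / 100000 * ((d.mlo + 2) / (d.mlo + 1)) ≤ d.hk ^ 2) &&
    decide (0 < d.g) && decide (d.g ≤ 1) && decide (0 < d.a) && decide (0 < d.z2) &&
    decide (d.z2 < 1) && decide (0 < d.phi) && decide (d.phi < 1) && decide (1 < d.v1) &&
    decide (0 ≤ d.n0 - 3 / 8 + (d.n1 + 229 / 200) / d.mhi) &&
    decide (0 ≤ d.n0 - 3 / 8 + (d.n1 + 229 / 200) / d.mlo) &&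
    decide (0 ≤ 2 * d.n0 + d.g1 / d.mhi) && decide (0 ≤ 2 * d.n0 + d.g1 / d.mlo) &&
    decide ((d.n0 - 3 / 8 + (d.n1 + 7 / 5) / d.mhi) * (1 + 3 / d.mlo) * d.g ^ 2 ≤ d.a) &&
    decide ((d.n0 - 3 / 8 + (d.n1 + 7 / 5) / d.mlo) * (1 + 3 / d.mlo) * d.g ^ 2 ≤ d.a) &&
    okChain d.z2 d.mhi 0 d.pieces && d.pieces.all (okPiece d)

/-- The rational conditions on a piece, over the reals. -/
structure PieceFacts (d : Data) (P : Piece) : Prop where
  xa_nonneg : 0 ≤ (P.xa : ℝ)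
  xa_le : (P.xa : ℝ) ≤ P.xb
  eh_ge : 1 / (d.mhi : ℝ) ≤ (P.eh : ℝ)
  eh_cover : 1 / (d.mlo : ℝ) ≤ (P.eh : ℝ) ∨ (d.z2 : ℝ) ≤ P.eh * (P.xa : ℝ) ^ 2
  base_mem : 0 ≤ (P.base : ℝ) ∧ (P.base : ℝ) ≤ 1 ∧ (P.base : ℝ) ≤ P.xa
  top_nonneg : 0 ≤ (P.top : ℝ)
  top_base : (d.ev : ℝ) * d.hk - P.base * (1 - (P.base : ℝ) ^ 2 / 6) ≤
    P.top * (1 - (P.base : ℝ) ^ 2 / 2 + ((P.base : ℝ) ^ 2 / 2) ^ 2 / 2 -
      ((P.base : ℝ) ^ 2 / 2) ^ 3 / 6)
  w1_nonneg : 0 ≤ (P.w1 : ℝ)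
  ev_le : (d.ev : ℝ) ≤ P.w0 + P.w1 * (P.xa : ℝ) ^ 2
  lines_nonneg : (0 ≤ (P.lo0 : ℝ) ∧ 0 ≤ (P.lo1 : ℝ)) ∧ 0 ≤ (P.hi0 : ℝ) ∧ 0 ≤ (P.hi1 : ℝ)

theorem piece_facts {d : Data} {P : Piece} (h : okPiece d P = true) : PieceFacts d P := by
  simp only [okPiece, Bool.and_eq_true, Bool.or_eq_true, decide_eq_true_eq] at h
  obtain ⟨⟨⟨⟨⟨⟨⟨⟨⟨⟨⟨⟨⟨⟨h1, h2⟩, h3⟩, h4⟩, h5⟩, h6⟩, h7⟩, h8⟩, h9⟩, h10⟩, h11⟩, h12⟩, h13⟩,
    h14⟩, h15⟩ := h
  constructor
  · exact_mod_cast h1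
  · exact_mod_cast h2
  · have := (Rat.cast_le (K := ℝ)).2 h3; push_cast at this; exact this
  · refine h4.imp (fun h => ?_) fun h => ?_ <;>
      (have := (Rat.cast_le (K := ℝ)).2 h; push_cast at this; exact this)
  · exact ⟨by exact_mod_cast h5, by exact_mod_cast h6, by exact_mod_cast h7⟩
  · exact_mod_cast h8
  · have := (Rat.cast_le (K := ℝ)).2 h9; push_cast at this; push_cast; exact this
  · exact_mod_cast h10
  · have := (Rat.cast_le (K := ℝ)).2 h11; push_cast at this; exact this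
  · exact ⟨⟨by exact_mod_cast h12, by exact_mod_cast h13⟩, by exact_mod_cast h14, by exact_mod_cast h15⟩

/-- The range of `z` of a piece. -/
def zBox (d : Data) (P : Piece) : List Iv :=
  [between (P.xa ^ 2 / d.mhi) (max (P.xa ^ 2 / d.mhi) (min d.z2 (P.xb ^ 2 * P.eh)))]

/-- The line below `1 / arc`, checked. -/
def loExpr (P : Piece) : Expr :=
  ofRat 1 - (ofRat P.lo0 + ofRat P.lo1 * .var 0) ^ 2 * (ofRat 1 - .var 0)

/-- The line above `1 / arc`, checked. -/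
def hiExpr (P : Piece) : Expr :=
  (ofRat P.hi0 + ofRat P.hi1 * .var 0) ^ 2 * (ofRat 1 - .var 0) - ofRat 1

/-- The line above the rational bound of `(1 - z) / r`, checked in `X = √(p + 3) s`. -/
def topExpr (P : Piece) : Expr :=
  (ofRat P.w0 + ofRat P.w1 * .var 0 ^ 2) * (.var 0 + ofRat (5 / 4)) -
    ofRat P.top * (.var 0 ^ 2 + ofRat (29 / 20) * .var 0 + ofRat (21 / 20))

/-- The range of `X` of a piece. -/
def topBox (d : Data) (P : Piece) : List Iv := [between P.xa (P.xb * (1 + 1 / d.mlo))]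

/-- The kernel checks of a piece. -/
structure Checks (d : Data) (P : Piece) : Prop where
  top : ∃ T, certify false (topExpr P) (topBox d P) T = true
  low : ∃ T, certify false (loExpr P) (zBox d P) T = true
  high : ∃ T, certify false (hiExpr P) (zBox d P) T = true
  vertex : P.near = true → ∀ i, ∃ T,
    certify true (vertex ofRat d i P (.var 0) (.var 1)) (box2 d P) T = true
  near : P.near = true → ∀ i, ∃ T,
    certify false (nearClaim ofRat d i P (.var 0) (.var 1)) (box2 d P) T = true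
  below : P.near = false → d.low = true → ∀ i, ∃ T,
    certify false (lowClaim ofRat d i P (.var 0) (.var 1) (.var 2)) (box3 d P) T = true
  far : ∀ i, ∃ T,
    certify false (farClaim ofRat d i P (.var 0) (.var 1) (.var 2)) (box3 d P) T = true

/-- The conditions on the constants. -/
structure Good (d : Data) : Prop where
  ok : okData d = true
  checks : ∀ P ∈ d.pieces, Checks d P

theorem eval_ofRat (x : List ℝ) (q : ℚ) : (ofRat q).eval x = toReal q := by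
  simp [ofRat, toReal, Rat.cast_def]

theorem eval_rest (v : List ℝ) (x e : Expr) : ∀ L : List Term,
    (rest ofRat x e L).eval v = rest toReal (x.eval v) (e.eval v) L
  | [] => by simp [rest, eval_ofRat]
  | T :: L => by simp [rest, eval_ofRat, eval_rest v x e L]

theorem mem_between {a b : ℚ} {x : ℝ} (hx : x ∈ Icc (a : ℝ) (b : ℝ)) :
    ((between a b).lo : ℝ) ≤ (between a b).den * x ∧
      ((between a b).den : ℝ) * x ≤ (between a b).hi := by
  have ha : (0 : ℝ) < a.den := Nat.cast_pos.2 a.pos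
  have hb : (0 : ℝ) < b.den := Nat.cast_pos.2 b.pos
  obtain ⟨h1, h2⟩ := hx
  rw [Rat.cast_def, div_le_iff₀ ha] at h1
  rw [Rat.cast_def, le_div_iff₀ hb] at h2
  simp only [between]
  push_cast
  exact ⟨by nlinarith [mul_le_mul_of_nonneg_left h1 hb.le],
    by nlinarith [mul_le_mul_of_nonneg_left h2 ha.le]⟩

variable {d : Data} {P : Piece} {x e : ℝ}

theorem sq_mem (hP : 0 ≤ (P.xa : ℝ)) (hx : x ∈ Icc (P.xa : ℝ) (P.xb : ℝ)) :
    x ^ 2 ∈ Icc ((P.xa ^ 2 : ℚ) : ℝ) ((P.xb ^ 2 : ℚ) : ℝ) := by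
  push_cast
  exact ⟨pow_le_pow_left₀ hP hx.1 2, pow_le_pow_left₀ (hP.trans hx.1) hx.2 2⟩

theorem inBox_box2 (hP : 0 ≤ (P.xa : ℝ)) (hx : x ∈ Icc (P.xa : ℝ) (P.xb : ℝ)) (he : e ∈ Icc (1 / (d.mhi : ℝ)) (P.eh : ℝ)) :
    InBox (box2 d P) [x ^ 2, e] :=
  ⟨(mem_between (sq_mem hP hx)).1, (mem_between (sq_mem hP hx)).2,
    (mem_between (a := 1 / (d.mhi : ℚ)) (by push_cast; exact he)).1,
    (mem_between (a := 1 / (d.mhi : ℚ)) (by push_cast; exact he)).2, trivial⟩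

theorem inBox_box3 (hP : 0 ≤ (P.xa : ℝ)) (hx : x ∈ Icc (P.xa : ℝ) (P.xb : ℝ)) (he : e ∈ Icc (1 / (d.mhi : ℝ)) (P.eh : ℝ))
    {s : ℝ} (hs : s ∈ Icc (0 : ℝ) 1) : InBox (box3 d P) [x ^ 2, e, s] :=
  ⟨(mem_between (sq_mem hP hx)).1, (mem_between (sq_mem hP hx)).2,
    (mem_between (a := 1 / (d.mhi : ℚ)) (by push_cast; exact he)).1,
    (mem_between (a := 1 / (d.mhi : ℚ)) (by push_cast; exact he)).2, by simpa using hs.1, by simpa using hs.2,
    trivial⟩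

theorem Checks.vertex_pos (h : Checks d P) (hn : P.near = true) (i : Corner)
    (hP : 0 ≤ (P.xa : ℝ)) (hx : x ∈ Icc (P.xa : ℝ) (P.xb : ℝ)) (he : e ∈ Icc (1 / (d.mhi : ℝ)) (P.eh : ℝ)) :
    0 < Mid50.vertex toReal d i P (x ^ 2) e := by
  obtain ⟨T, hT⟩ := h.vertex hn i
  have h' := pos_of_certify hT (x := [x ^ 2, e]) (inBox_box2 hP hx he)
  simpa [Mid50.vertex, Mid50.lead, bnear, bsq, bdiv, nu, ic, gg, cz, eval_ofRat] using h'

theorem Checks.near_nonneg (h : Checks d P) (hn : P.near = true) (i : Corner)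
    (hP : 0 ≤ (P.xa : ℝ)) (hx : x ∈ Icc (P.xa : ℝ) (P.xb : ℝ)) (he : e ∈ Icc (1 / (d.mhi : ℝ)) (P.eh : ℝ)) :
    0 ≤ nearClaim toReal d i P (x ^ 2) e := by
  obtain ⟨T, hT⟩ := h.near hn i
  have h' := nonneg_of_certify hT (x := [x ^ 2, e]) (inBox_box2 hP hx he)
  simpa [nearClaim, Mid50.vertex, Mid50.lead, bnear, bsq, bdiv, nu, ic, gg, cz, slope, elam,
    eval_rest, eval_ofRat] using h'

theorem Checks.far_nonneg (h : Checks d P) (i : Corner)
    (hP : 0 ≤ (P.xa : ℝ)) (hx : x ∈ Icc (P.xa : ℝ) (P.xb : ℝ)) (he : e ∈ Icc (1 / (d.mhi : ℝ)) (P.eh : ℝ)) {s : ℝ}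
    (hs : s ∈ Icc (0 : ℝ) 1) : 0 ≤ farClaim toReal d i P (x ^ 2) e s := by
  obtain ⟨T, hT⟩ := h.far i
  have h' := nonneg_of_certify hT (x := [x ^ 2, e, s]) (inBox_box3 hP hx he hs)
  cases hn : P.near <;> cases hl : d.low <;>
  simpa [farClaim, whole, shadN, shadD, wtop, hn, hl, bsq, bdiv, nu, ic, gg, cz, slope, elam,
    eval_rest, eval_ofRat] using h'

theorem Checks.below_nonneg (h : Checks d P) (hn : P.near = false) (hl : d.low = true) (i : Corner)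
    (hP : 0 ≤ (P.xa : ℝ)) (hx : x ∈ Icc (P.xa : ℝ) (P.xb : ℝ)) (he : e ∈ Icc (1 / (d.mhi : ℝ)) (P.eh : ℝ)) {s : ℝ}
    (hs : s ∈ Icc (0 : ℝ) 1) : 0 ≤ lowClaim toReal d i P (x ^ 2) e s := by
  obtain ⟨T, hT⟩ := h.below hn hl i
  have h' := nonneg_of_certify hT (x := [x ^ 2, e, s]) (inBox_box3 hP hx he hs)
  simpa [lowClaim, whole, shadN, shadD, bsq, bdiv, nu, ic, gg, cz, slope, elam, eval_rest,
    eval_ofRat] using h'

/-- The line bounds the rational factor. -/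
theorem Checks.top_line (h : Checks d P) {X : ℝ} (h0 : 0 ≤ X)
    (hX : X ∈ Icc (P.xa : ℝ) ((P.xb : ℝ) * (1 + 1 / (d.mlo : ℝ)))) :
    (P.top : ℝ) / millsRat X ≤ P.w0 + P.w1 * X ^ 2 := by
  obtain ⟨T, hT⟩ := h.top
  have hb : InBox (topBox d P) [X] := by
    have := mem_between (a := P.xa) (b := P.xb * (1 + 1 / d.mlo)) (x := X) (by push_cast; exact hX)
    exact ⟨this.1, this.2, trivial⟩
  have := nonneg_of_certify hT hb
  simp [topExpr, eval_ofRat, toReal] at this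
  rw [millsRat, div_div_eq_mul_div, div_le_iff₀ (by linarith)]
  linarith

/-- The two lines bound the reciprocal of the half circle. -/
theorem Checks.arc_lines (h : Checks d P) (hP : okPiece d P = true) {s : ℝ}
    (hs : s ∈ Ioo (0 : ℝ) 1) (hz : x ^ 2 * e = s ^ 2) (hx : x ∈ Icc (P.xa : ℝ) (P.xb : ℝ))
    (he : e ∈ Icc (1 / (d.mhi : ℝ)) (P.eh : ℝ)) (hz2 : s ^ 2 ≤ (d.z2 : ℝ)) :
    (P.lo0 : ℝ) + P.lo1 * s ^ 2 ≤ 1 / arc s ∧ 1 / arc s ≤ (P.hi0 : ℝ) + P.hi1 * s ^ 2 := by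
  have g4 := (piece_facts hP).xa_nonneg
  obtain ⟨⟨g0, g1⟩, g2, g3⟩ := (piece_facts hP).lines_nonneg
  have hc : 0 < arc s := arc_pos ⟨by linarith [hs.1], hs.2⟩
  have h2 : arc s ^ 2 = 1 - s ^ 2 := Real.sq_sqrt (by nlinarith [hs.1, hs.2])
  have hlo : (P.xa : ℝ) ^ 2 / (d.mhi : ℝ) ≤ s ^ 2 := by
    rw [← hz, div_eq_mul_one_div]
    exact mul_le_mul (pow_le_pow_left₀ g4 hx.1 2) he.1 (by positivity) (sq_nonneg x)
  have hhi : s ^ 2 ≤ max ((P.xa : ℝ) ^ 2 / (d.mhi : ℝ)) (min (d.z2 : ℝ) ((P.xb : ℝ) ^ 2 * P.eh)) := by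
    refine le_max_of_le_right (le_min hz2 ?_)
    rw [← hz]
    exact mul_le_mul (pow_le_pow_left₀ (g4.trans hx.1) hx.2 2) he.2 (le_trans (by positivity) he.1)
      (sq_nonneg _)
  have hb : InBox (zBox d P) [s ^ 2] := by
    have := mem_between (a := P.xa ^ 2 / d.mhi) (b := max (P.xa ^ 2 / d.mhi) (min d.z2 (P.xb ^ 2 * P.eh)))
      (x := s ^ 2) (by push_cast; exact ⟨hlo, hhi⟩)
    exact ⟨this.1, this.2, trivial⟩
  obtain ⟨T1, h1⟩ := h.low
  obtain ⟨T2, h3⟩ := h.high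
  have e1 := nonneg_of_certify h1 hb
  have e2 := nonneg_of_certify h3 hb
  simp [loExpr, hiExpr, eval_ofRat, toReal] at e1 e2
  constructor
  · rw [le_div_iff₀ hc]
    refine (pow_le_pow_iff_left₀ (mul_nonneg (by positivity) hc.le) zero_le_one two_ne_zero).1 ?_
    rw [mul_pow, h2, one_pow]
    linarith
  · rw [div_le_iff₀ hc]
    refine (pow_le_pow_iff_left₀ zero_le_one (mul_nonneg (by positivity) hc.le) two_ne_zero).1 ?_
    rw [mul_pow, h2, one_pow]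
    linarith

/-- Some piece holds the point. -/
theorem exists_piece {z2 : ℚ} {M : ℕ} (hM : 0 < M) : ∀ (L : List Piece) (a : ℚ),
    okChain z2 M a L = true →
    0 ≤ a → (a : ℝ) ≤ x → x ^ 2 * e ≤ (z2 : ℝ) → 1 / (M : ℝ) ≤ e → (∀ P ∈ L, P.xa ≤ P.xb) →
    L = [] ∨ ∃ P ∈ L, x ∈ Icc (P.xa : ℝ) (P.xb : ℝ)
  | [], _, _, _, _, _, _, _ => Or.inl rfl
  | P :: L, a, h, ha, hax, hz, he, hL => by
    simp only [okChain, Bool.and_eq_true, decide_eq_true_eq] at h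
    obtain ⟨hPa, h⟩ := h
    refine Or.inr ?_
    rcases le_total x (P.xb : ℝ) with hb | hb
    · exact ⟨P, List.mem_cons_self, hPa ▸ hax, hb⟩
    have hb0 : 0 ≤ P.xb := ha.trans (hPa ▸ hL P List.mem_cons_self)
    rcases exists_piece hM L P.xb h hb0 hb hz he (fun R hR => hL R (List.mem_cons_of_mem _ hR)) with
      rfl | ⟨R, hR, hx⟩
    · simp only [okChain, decide_eq_true_eq] at h
      have h' : (z2 : ℝ) * M ≤ (P.xb : ℝ) ^ 2 := by exact_mod_cast h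
      have hb' : (0 : ℝ) ≤ P.xb := by exact_mod_cast hb0
      have h2 := pow_le_pow_left₀ hb' hb 2
      have h3 : x ^ 2 ≤ (P.xb : ℝ) ^ 2 := by
        refine le_trans ?_ h'
        have hM' : (0 : ℝ) < M := by exact_mod_cast hM
        rw [← div_le_iff₀ hM', div_eq_mul_one_div]
        exact (mul_le_mul_of_nonneg_left he (sq_nonneg x)).trans hz
      exact ⟨P, List.mem_cons_self, hPa ▸ hax,
        (pow_le_pow_iff_left₀ (hb'.trans hb) hb' two_ne_zero).1 h3⟩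
    · exact ⟨R, List.mem_cons_of_mem _ hR, hx⟩

end Vale.Agent.P237.Petty.Cor.Mid50
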