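import Vale.Agent.P237.Petty.Cor.Mid50.Cell1.Main
import Vale.Agent.P237.Petty.Cor.Mid50.Cell2.Main
import Vale.Agent.P237.Petty.Cor.Mid50.Cell3.Main

/-!
# P237: middle orders, from six over the dimension to one

For `50 ≤ p + 2 ≤ 99` the bounds of the correlation excess hold for every value in
`[6 / (p + 2), 1]`.
-/

namespace Vale.Agent.P237.Petty.Cor

variable {p : ℕ}

/-- The bounds from `6 / (p + 2)` to `1` in the orders `48 ≤ p ≤ 97`. -/
theorem corCell_mid50 (hp : 48 ≤ p) (hp' : p ≤ 97) : CorCell p (6 / ((p : ℝ) + 2)) 1 := by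
  have h : (50 : ℝ) ≤ (p : ℝ) + 2 := by
    have : (48 : ℝ) ≤ p := by exact_mod_cast hp
    linarith
  have a : 10 / ((p : ℝ) + 2) ≤ 1 / 5 := by rw [div_le_div_iff₀ (by linarith) (by norm_num)]; linarith
  have b : 21 / ((p : ℝ) + 2) ≤ 21 / 50 := div_le_div_of_nonneg_left (by norm_num) (by norm_num) h
  exact ((Mid50.Cell1.corCell hp hp').append fun ell hl =>
    Mid50.Cell2.corCell hp hp' ell ⟨a.trans hl.1, hl.2⟩).append fun ell hl =>
      Mid50.Cell3.corCell hp hp' ell ⟨b.trans hl.1, hl.2⟩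

end Vale.Agent.P237.Petty.Cor
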