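import Vale.Agent.P237.Petty.Cor.Mid50.Tail

/-!
# P237: from the constants to a cell for middle orders

The remainder is the polynomial of the pieces plus a power of `s ^ 2` for what is beyond; its mean
is a rational number times `half (p + 1)`, compared order by order.
-/

namespace Vale.Agent.P237.Petty.Cor.Mid50

open MeasureTheory Set intervalIntegral P100.Bernstein
open Ident (half)
open Huge (moment)

variable {p : ℕ} {d : Data}

/-- A moment of a power of the half circle, over that power's integral. -/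
def momQ (k : ℕ) : ℕ → ℚ
  | 0 => 1
  | j + 1 => momQ k j * (2 * j + 1) / (k + 2 * j + 3)

theorem moment_eq_momQ (k : ℕ) : ∀ j, moment k j = (momQ k j : ℝ) * half k
  | 0 => by simp [momQ, Huge.moment_zero]
  | j + 1 => by
    have h := Huge.moment_step k j
    rw [moment_eq_momQ k j] at h
    simp only [momQ]
    push_cast
    rw [div_mul_eq_mul_div, eq_div_iff (by positivity)]
    linarith

/-- The mean of the polynomial part, times `(p + 1) ^ 2`, over `half (p + 1)`. -/
def meanPoly (p : ℕ) : List Term → ℚ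
  | [] => 0
  | T :: L => T.c * ((p : ℚ) + 1) ^ T.j * momQ (p + 1) (T.j + T.k) + meanPoly p L

/-- The same for the part beyond the pieces. -/
def meanTail (d : Data) (jt p : ℕ) : ℚ :=
  |tailFactor d| * ((p : ℚ) + 1) ^ 3 * (1 / d.z2) ^ jt * momQ (p - 3) jt *
    ((p / (p - 1)) * ((p + 2) / (p + 1)))

/-- The mean condition at every order. -/
def meanOk (d : Data) (jt : ℕ) (w0 : ℚ) : Bool :=
  (List.range (d.mhi + 1 - d.mlo)).all fun i =>
    decide (meanPoly (d.mlo - 1 + i) d.terms + meanTail d jt (d.mlo - 1 + i) ≤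
      w0 * (3 / 4 - 14 / 5 / ((d.mlo - 1 + i : ℕ) + 1)) *
        (((d.mlo - 1 + i : ℕ) + 1) / ((d.mlo - 1 + i : ℕ) + 2)) ^ 2)

/-- The polynomial part beyond the pieces, in `(z, e)`, times `e ^ 3`. -/
def restExpr : List Term → Expr
  | [] => ofRat 0
  | T :: L => ofRat T.c * (Expr.var 0 ^ (T.j + T.k) * Expr.var 1 ^ (5 - T.j)) + restExpr L

/-- The conditions for a cell beyond those of the pieces. -/
structure Outer (d : Data) (jt : ℕ) (w0 : ℚ) : Prop where
  z2_ge : 121 / 16 ≤ ((d.mlo : ℚ) + 2) * d.z2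
  w0_pos : 0 ≤ w0
  degree : d.terms.all (fun T => decide (T.j ≤ 5)) = true
  rest_pos : ∃ T, certify false (restExpr d.terms) [between d.z2 1, between (1 / d.mhi) (1 / d.mlo)] T = true
  mean : meanOk d jt w0 = true

theorem rest_scaled {x e : ℝ} : ∀ L : List Term, (∀ T ∈ L, T.j ≤ 5) →
    rest toReal (x ^ 2) e L * e ^ 3 = (restExpr L).eval [x ^ 2 * e, e]
  | [], _ => by simp [rest, restExpr, ofRat, toReal]
  | T :: L, h => by
    have hj := h T List.mem_cons_self
    have ih := rest_scaled (x := x) (e := e) L fun R hR => h R (List.mem_cons_of_mem _ hR)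
    simp [rest, restExpr, eval_ofRat, add_mul, ih]
    rw [mul_pow, ← pow_mul, show T.j + T.k = T.k + T.j by omega]
    conv_rhs => rw [pow_add e T.k T.j, mul_assoc, mul_assoc (e ^ T.k), ← pow_add e T.j,
      show T.j + (5 - T.j) = 5 by omega]
    ring

/-- The remainder. -/
noncomputable def restR (p : ℕ) (d : Data) (jt : ℕ) (s : ℝ) : ℝ :=
  rest toReal ((√((p : ℝ) + 1) * s) ^ 2) (1 / ((p : ℝ) + 1)) d.terms +
    |(tailFactor d : ℝ)| * ((p : ℝ) + 1) * (1 / (d.z2 : ℝ)) ^ jt *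
      (s ^ (2 * jt) / (1 - s ^ 2) ^ 2)

theorem rest_pointwise {jt : ℕ} {w0 : ℚ} (hd : Good d) (ho : Outer d jt w0) (hp : InRange d p) {ell s t a r q : ℝ} (h : FlatState p ell s t a r q) (h0 : 0 ≤ ell)
    (hE : Real.exp ell ≤ d.ev) :
    ell * (wS p (arc s) - 0) - restR p d jt s ≤
      cancelExpr p (gamM p d) (nuM p d) ell (fun s t => s + (d.g : ℝ) * (s - t))
        (fun _ _ => 1 + (d.g : ℝ)) (fun _ _ => -(d.g : ℝ)) (quadPot (potK p d) (potB d))
        (quadPotS (potK p d) (potK' p d) (potB d) (potB' d))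
        (quadPotT (potK p d) (potB d)) s t a r := by
  have D := data_facts hd.ok
  have hs := h.state.s_mem
  have hc : 0 < 1 - s ^ 2 := by nlinarith [hs.1, hs.2]
  have hz0 := D.z2_mem.1
  set W := |(tailFactor d : ℝ)| * ((p : ℝ) + 1) * (1 / (d.z2 : ℝ)) ^ jt *
    (s ^ (2 * jt) / (1 - s ^ 2) ^ 2) with hW
  have hW0 : 0 ≤ W := by
    have := hs.1
    positivity
  rw [restR, sub_zero, ← hW]
  rcases le_total (s ^ 2) (d.z2 : ℝ) with h1 | h1
  · have := bulk_ge hd hp h h0 hE h1
    linarith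
  · have h5 : 121 / 16 ≤ ((p : ℝ) + 3) * s ^ 2 := by
      have := (Rat.cast_le (K := ℝ)).2 ho.z2_ge
      push_cast at this
      exact this.trans (mul_le_mul (by linarith [hp.cast.2.1]) h1 hz0.le (by positivity))
    have ht := tail_ge D hp h h0 hE h5 h1
    have hc2 : arc s ^ 2 = 1 - s ^ 2 := Real.sq_sqrt hc.le
    have hM : (tailFactor d : ℝ) * (((p : ℝ) + 1) / arc s ^ 4) ≤ W := by
      rw [hW, show arc s ^ 4 = (1 - s ^ 2) ^ 2 by rw [← hc2]; ring,
        show |(tailFactor d : ℝ)| * ((p : ℝ) + 1) * (1 / (d.z2 : ℝ)) ^ jt *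
          (s ^ (2 * jt) / (1 - s ^ 2) ^ 2) = |(tailFactor d : ℝ)| *
            (((p : ℝ) + 1) / (1 - s ^ 2) ^ 2) * (1 / (d.z2 : ℝ) * s ^ 2) ^ jt by
          rw [mul_pow, ← pow_mul]; ring]
      refine (mul_le_mul_of_nonneg_right (le_abs_self _) (by positivity)).trans
        (le_mul_of_one_le_right (by positivity) (one_le_pow₀ ?_))
      rw [one_div, ← div_eq_inv_mul, one_le_div hz0]
      exact h1
    have he := e_mem hp
    obtain ⟨T, hT⟩ := ho.rest_pos
    have hxz : (√((p : ℝ) + 1) * s) ^ 2 * (1 / ((p : ℝ) + 1)) = s ^ 2 := by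
      rw [mul_pow, Real.sq_sqrt (by positivity)]; field_simp
    have hb : InBox [between d.z2 1, between (1 / d.mhi) (1 / d.mlo)] [s ^ 2, 1 / ((p : ℝ) + 1)] :=
      ⟨(mem_between (b := 1) (x := s ^ 2) (by push_cast; exact ⟨h1, by linarith⟩)).1,
        (mem_between (b := 1) (x := s ^ 2) (by push_cast; exact ⟨h1, by linarith⟩)).2,
        (mem_between (a := 1 / (d.mhi : ℚ)) (b := 1 / (d.mlo : ℚ)) (by push_cast; exact he)).1,
        (mem_between (a := 1 / (d.mhi : ℚ)) (b := 1 / (d.mlo : ℚ)) (by push_cast; exact he)).2, trivial⟩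
    have hR := nonneg_of_certify hT hb
    rw [← hxz, ← rest_scaled _ (by simpa using ho.degree)] at hR
    have := nonneg_of_mul_nonneg_left hR (pow_pos (by positivity) 3)
    linarith

theorem continuous_rest (L : List Term) (c e : ℝ) :
    Continuous fun s : ℝ => rest toReal ((c * s) ^ 2) e L := by
  induction L with
  | nil => simp only [rest]; fun_prop
  | cons T L ih => simp only [rest]; fun_prop

theorem restR_arc {jt : ℕ} (hp : 4 ≤ p) {s : ℝ} (hs : s ∈ Icc (0 : ℝ) 1) :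
    arc s ^ (p + 1) * restR p d jt s =
      arc s ^ (p + 1) * rest toReal ((√((p : ℝ) + 1) * s) ^ 2) (1 / ((p : ℝ) + 1)) d.terms +
        |(tailFactor d : ℝ)| * ((p : ℝ) + 1) * (1 / (d.z2 : ℝ)) ^ jt *
          (arc s ^ (p - 3) * s ^ (2 * jt)) := by
  have hc2 : arc s ^ 2 = 1 - s ^ 2 := Real.sq_sqrt (by nlinarith [hs.1, hs.2])
  have h : arc s ^ (p + 1) * (s ^ (2 * jt) / (1 - s ^ 2) ^ 2) =
      arc s ^ (p - 3) * s ^ (2 * jt) := by
    rcases eq_or_lt_of_le hs.2 with h1 | h1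
    · subst h1
      simp [arc, zero_pow (show p - 3 ≠ 0 by omega)]
    · have : (1 - s ^ 2) ≠ 0 := by nlinarith [hs.1]
      rw [show p + 1 = (p - 3) + 4 by omega, pow_add, show arc s ^ 4 = (arc s ^ 2) ^ 2 by ring, hc2]
      field_simp
  rw [restR, ← h]
  ring

theorem integral_rest (p : ℕ) : ∀ L : List Term,
    ∫ s in (0 : ℝ)..1, arc s ^ (p + 1) * rest toReal ((√((p : ℝ) + 1) * s) ^ 2) (1 / ((p : ℝ) + 1)) L =
      (1 / ((p : ℝ) + 1)) ^ 2 * (meanPoly p L : ℝ) * half (p + 1)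
  | [] => by simp [rest, meanPoly, toReal]
  | T :: L => by
    have h1 : IntervalIntegrable
        (fun s => (T.c : ℝ) * (1 / ((p : ℝ) + 1)) ^ 2 * ((p : ℝ) + 1) ^ T.j *
          (arc s ^ (p + 1) * s ^ (2 * (T.j + T.k)))) volume 0 1 :=
      (Huge.integrable_moment _ _ _ _).const_mul _
    have h2 : IntervalIntegrable
        (fun s => arc s ^ (p + 1) * rest toReal ((√((p : ℝ) + 1) * s) ^ 2) (1 / ((p : ℝ) + 1)) L) volume 0 1 :=
      ((continuous_arc.pow _).mul (continuous_rest L _ _)).intervalIntegrable _ _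
    rw [intervalIntegral.integral_congr (g := fun s => (T.c : ℝ) * (1 / ((p : ℝ) + 1)) ^ 2 *
        ((p : ℝ) + 1) ^ T.j * (arc s ^ (p + 1) * s ^ (2 * (T.j + T.k))) +
        arc s ^ (p + 1) * rest toReal ((√((p : ℝ) + 1) * s) ^ 2) (1 / ((p : ℝ) + 1)) L) fun s _ => ?_,
      intervalIntegral.integral_add h1 h2, intervalIntegral.integral_const_mul, integral_rest p L,
      show (∫ s in (0 : ℝ)..1, arc s ^ (p + 1) * s ^ (2 * (T.j + T.k))) =
        moment (p + 1) (T.j + T.k) from rfl, moment_eq_momQ, meanPoly]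
    · push_cast
      ring
    · simp only [rest, toReal]
      rw [mul_add (arc s ^ (p + 1))]
      rw [mul_pow, Real.sq_sqrt (by positivity), mul_pow, ← pow_mul s, pow_add ((p : ℝ) + 1),
        pow_add (1 / ((p : ℝ) + 1)), one_div_pow, one_div_pow]
      field_simp

/-- The mean of the remainder. -/
theorem rest_mean {jt : ℕ} {w0 : ℚ} (ho : Outer d jt w0) (hp : InRange d p) :
    ∫ s in (0 : ℝ)..1, arc s ^ (p + 1) * restR p d jt s ≤
      (w0 : ℝ) / ((p : ℝ) + 2) * (half (p + 1) * Ident.muMin p / ((p : ℝ) + 2)) := by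
  have hH := (Ident.half_pos (p + 1)).le
  have i1 : IntervalIntegrable (fun s => arc s ^ (p + 1) *
      rest toReal ((√((p : ℝ) + 1) * s) ^ 2) (1 / ((p : ℝ) + 1)) d.terms) volume 0 1 :=
    ((continuous_arc.pow _).mul (continuous_rest _ _ _)).intervalIntegrable _ _
  rw [intervalIntegral.integral_congr (g := fun s => arc s ^ (p + 1) *
        rest toReal ((√((p : ℝ) + 1) * s) ^ 2) (1 / ((p : ℝ) + 1)) d.terms +
        |(tailFactor d : ℝ)| * ((p : ℝ) + 1) * (1 / (d.z2 : ℝ)) ^ jt *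
          (arc s ^ (p - 3) * s ^ (2 * jt)))
      (by rw [uIcc_of_le zero_le_one]; exact fun s hs => restR_arc (by have := hp.ge; omega) hs),
    intervalIntegral.integral_add i1 ((Huge.integrable_moment _ _ _ _).const_mul _),
    intervalIntegral.integral_const_mul, integral_rest,
    show (∫ s in (0 : ℝ)..1, arc s ^ (p - 3) * s ^ (2 * jt)) = moment (p - 3) jt from rfl,
    moment_eq_momQ]
  have hh : half (p - 3) ≤ (p : ℝ) / ((p : ℝ) - 1) * (((p : ℝ) + 2) / ((p : ℝ) + 1)) *
      half (p + 1) := by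
    obtain ⟨k, rfl⟩ : ∃ k, p = k + 3 := ⟨p - 3, by have := hp.ge; omega⟩
    have a1 := half_le_shift k
    have a2 := half_le_shift (k + 2)
    push_cast at a2 ⊢
    rw [show k + 3 + 1 = k + 2 + 2 by omega,
      show (k : ℝ) + 3 - 1 = k + 2 by ring, show (k : ℝ) + 3 + 2 = k + 2 + 3 by ring,
      show (k : ℝ) + 3 + 1 = k + 2 + 2 by ring, mul_assoc]
    exact a1.trans (mul_le_mul_of_nonneg_left a2 (by positivity))
  have hq := ho.mean
  simp only [meanOk, List.all_eq_true, List.mem_range, decide_eq_true_eq] at hq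
  have hlo := hp.lo
  have hhi := hp.hi
  have hge := hp.ge
  have hq' := hq (p - (d.mlo - 1)) (by omega)
  rw [show d.mlo - 1 + (p - (d.mlo - 1)) = p by have := hp.base; omega] at hq'
  have hr := (Rat.cast_le (K := ℝ)).2 hq'
  simp only [meanTail] at hr
  push_cast at hr
  have hp1 : (0 : ℝ) < (p : ℝ) + 1 := by positivity
  have hmq : 0 ≤ (momQ (p - 3) jt : ℝ) := by
    have h := Cor.moment_nonneg (p - 3) jt
    rw [moment_eq_momQ] at h
    exact nonneg_of_mul_nonneg_left h (Ident.half_pos _)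
  have hz : 0 ≤ (1 / (d.z2 : ℝ)) ^ jt := by
    have : (0 : ℝ) ≤ d.z2 := by
      have := (Rat.cast_le (K := ℝ)).2 ho.z2_ge
      push_cast at this
      exact nonneg_of_mul_nonneg_right (le_trans (by norm_num) this) (by positivity)
    positivity
  have hm := (muMin_bounds hp.ge hp.le).1
  have hw : (0 : ℝ) ≤ w0 := by exact_mod_cast ho.w0_pos
  have h1 := mul_le_mul_of_nonneg_left hh (show 0 ≤ |(tailFactor d : ℝ)| * ((p : ℝ) + 1) *
    (1 / (d.z2 : ℝ)) ^ jt * (momQ (p - 3) jt : ℝ) by positivity)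
  have h2 := mul_le_mul_of_nonneg_right (mul_le_mul_of_nonneg_left hr
    (show 0 ≤ (1 / ((p : ℝ) + 1)) ^ 2 by positivity)) hH
  have h3 := mul_le_mul_of_nonneg_right (mul_le_mul_of_nonneg_left hm hw)
    (show 0 ≤ half (p + 1) / ((p : ℝ) + 2) ^ 2 by positivity)
  have e2 : (1 / ((p : ℝ) + 1)) ^ 2 * ((w0 : ℝ) * (3 / 4 - 14 / 5 / ((p : ℝ) + 1)) *
      (((p : ℝ) + 1) / ((p : ℝ) + 2)) ^ 2) * half (p + 1) =
      (w0 : ℝ) * (3 / 4 - 14 / 5 / ((p : ℝ) + 1)) * (half (p + 1) / ((p : ℝ) + 2) ^ 2) := by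
    field_simp
  rw [e2] at h2
  rw [show (w0 : ℝ) / ((p : ℝ) + 2) * (half (p + 1) * Ident.muMin p / ((p : ℝ) + 2)) =
    (w0 : ℝ) * Ident.muMin p * (half (p + 1) / ((p : ℝ) + 2) ^ 2) by field_simp]
  have e1 : (1 / ((p : ℝ) + 1)) ^ 2 * (|(tailFactor d : ℝ)| * ((p : ℝ) + 1) ^ 3 *
      (1 / (d.z2 : ℝ)) ^ jt * (momQ (p - 3) jt : ℝ) *
      ((p : ℝ) / ((p : ℝ) - 1) * (((p : ℝ) + 2) / ((p : ℝ) + 1)))) =
      |(tailFactor d : ℝ)| * ((p : ℝ) + 1) * (1 / (d.z2 : ℝ)) ^ jt * (momQ (p - 3) jt : ℝ) *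
      ((p : ℝ) / ((p : ℝ) - 1) * (((p : ℝ) + 2) / ((p : ℝ) + 1))) := by
    rw [one_div_pow]; field_simp
  rw [mul_add, e1] at h2
  linarith

/-- A cell from its constants. -/
theorem corCell_of_data {jt : ℕ} {w0 hi : ℚ} (hd : Good d) (ho : Outer d jt w0)
    (hg : decide (0 < 2 * d.n0 + d.g1 / d.mhi ∧ 0 < 2 * d.n0 + d.g1 / d.mlo) = true)
    (hE : Real.exp (hi : ℝ) ≤ d.ev) (hp : InRange d p) :
    CorCell p ((w0 : ℝ) / ((p : ℝ) + 2)) hi := by
  have D := data_facts hd.ok
  have hgam : 0 < gamM p d := by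
    have he := e_mem hp
    simp only [decide_eq_true_eq] at hg
    have a1 := (Rat.cast_lt (K := ℝ)).2 hg.1
    have a2 := (Rat.cast_lt (K := ℝ)).2 hg.2
    push_cast at a1 a2
    have hG : 0 < gg toReal d (1 / ((p : ℝ) + 1)) := by
      simp only [gg, toReal]
      push_cast
      rcases le_total 0 (d.g1 : ℝ) with hb | hb
      · linarith [mul_le_mul_of_nonneg_left he.1 hb, mul_one_div (d.g1 : ℝ) (d.mhi : ℝ)]
      · linarith [mul_le_mul_of_nonpos_left he.2 hb, mul_one_div (d.g1 : ℝ) (d.mlo : ℝ)]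
    have := Ident.b0_pos p
    unfold gamM
    positivity
  have hcR : ContinuousOn (fun s => arc s ^ (p + 1) * restR p d jt s) (Icc 0 1) :=
    (((continuous_arc.pow _).mul (continuous_rest _ _ _)).add
      (continuous_const.mul ((continuous_arc.pow _).mul (continuous_pow _)))).continuousOn.congr
      fun s hs => restR_arc (by have := hp.ge; omega) hs
  refine corCell_of_bridge (p := p) (by have := hp.ge; omega) hgam (nuM_nonneg D hp) (g := (d.g : ℝ))
    (M := fun _ => 0) (R := restR p d jt)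
    (B := fun s => -(d.a : ℝ) * (arc s ^ (p + 1) * (1 - s ^ 2)))
    (k := potK p d) (k' := potK' p d) (β := potB d) (β' := potB' d)
    (fun s hs => hasDerivAt_potK hs) (fun s hs => (polePot_null p (d.a : ℝ) hs).1) ?_ ?_ ?_ ?_ hcR
    ?_ ?_ ?_
  · have := continuous_arc
    have e : (fun s => arc s ^ (p + 1) * potK p d s) = fun s =>
        -gg toReal d (1 / ((p : ℝ) + 1)) * arc s ^ p +
          arc s ^ (p + 1) * ((d.l0 : ℝ) / ((p : ℝ) + 1) + (d.l1 : ℝ) * s ^ 2) := by
      funext s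
      rcases eq_or_ne (arc s) 0 with h | h
      · simp [potK, h, show p ≠ 0 by have := hp.ge; omega]
      · rw [potK, pow_succ]; field_simp; ring
    rw [e]
    exact (by fun_prop : Continuous _).continuousOn
  · exact (continuous_const.mul ((continuous_arc.pow _).mul (by fun_prop))).continuousOn
  · intro s hs
    have := hs.1.ne'
    rw [potB]
    field_simp
  · simp only [mul_zero]
    exact continuousOn_const
  · simp only [mul_zero, intervalIntegral.integral_zero]
    have := Ident.half_pos (p + 1)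
    have := Lift.muMin_pos (p := p) (by have := hp.ge; omega)
    positivity
  · simp only [mul_zero, intervalIntegral.integral_zero, sub_zero]
    exact rest_mean ho hp
  · intro ell hl s t a r q h
    have hw : (0 : ℝ) ≤ w0 := by exact_mod_cast ho.w0_pos
    exact rest_pointwise hd ho hp h (le_trans (by positivity) hl.1)
      ((Real.exp_le_exp.2 hl.2).trans hE)

end Vale.Agent.P237.Petty.Cor.Mid50
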