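import Vale.Agent.P237.Petty.Cor.Mid50.Good
import Vale.Agent.P237.Petty.Cor.CutQuad

/-!
# P237: the cancelled cell for middle orders, pointwise in the bulk

The quadratic left by the cancellation is affine in the multiplier of the excess and in the
reciprocal of the half circle; at the four corners of their intervals it is nonnegative by the
vertex up to `v1` and by the exact discriminant beyond.
-/

namespace Vale.Agent.P237.Petty.Cor.Mid50

open Set
open Ident (half)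

variable {p : ℕ} {d : Data}

/-- The multiplier of the shadow. -/
noncomputable def gamM (p : ℕ) (d : Data) : ℝ :=
  gg toReal d (1 / ((p : ℝ) + 1)) * ((p : ℝ) + 1) / Ident.b0 p

/-- The multiplier of the excess. -/
noncomputable def nuM (p : ℕ) (d : Data) : ℝ :=
  (d.n0 : ℝ) + (d.n1 : ℝ) * (1 / ((p : ℝ) + 1)) - Ident.muMin p / 2

/-- The linear potential. -/
noncomputable def potK (p : ℕ) (d : Data) (s : ℝ) : ℝ :=
  -gg toReal d (1 / ((p : ℝ) + 1)) / arc s + (d.l0 : ℝ) / ((p : ℝ) + 1) + (d.l1 : ℝ) * s ^ 2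

/-- Its derivative. -/
noncomputable def potK' (p : ℕ) (d : Data) (s : ℝ) : ℝ :=
  -gg toReal d (1 / ((p : ℝ) + 1)) * s / arc s ^ 3 + 2 * (d.l1 : ℝ) * s

/-- The square potential. -/
noncomputable def potB (d : Data) (s : ℝ) : ℝ := -(d.a : ℝ) * (1 - s ^ 2) / s

/-- Its derivative. -/
noncomputable def potB' (d : Data) (s : ℝ) : ℝ := (d.a : ℝ) * (1 + 1 / s ^ 2)

theorem hasDerivAt_potK {s : ℝ} (hs : s ∈ Ioo (0 : ℝ) 1) :
    HasDerivAt (potK p d) (potK' p d s) s := by
  have h0 : 0 < 1 - s ^ 2 := by nlinarith [hs.1, hs.2]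
  have hq : 0 < arc s := Real.sqrt_pos.2 h0
  have hd : HasDerivAt arc (-s / arc s) s := by
    refine (((hasDerivAt_pow 2 s).const_sub 1).sqrt h0.ne').congr_deriv ?_
    simp only [arc]
    field_simp
    ring
  have h := (((hasDerivAt_const s (-gg toReal d (1 / ((p : ℝ) + 1)))).div hd hq.ne').add_const
    ((d.l0 : ℝ) / ((p : ℝ) + 1))).add ((hasDerivAt_pow 2 s).const_mul (d.l1 : ℝ))
  refine h.congr_deriv ?_
  rw [potK']
  field_simp
  ring

/-- The linear coefficient in `(t - s) / s`, times `e (1 - z) / x ^ 2`, at given `1 / arc`. -/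
noncomputable def slopeAt (d : Data) (x e ic : ℝ) : ℝ :=
  (1 - e) * (gg toReal d e * ic) +
    e * (2 * (d.l1 : ℝ) * (1 - x ^ 2 * e) - d.l0 - d.l1 * x ^ 2) -
    2 * (1 + 3 * e) * ((d.n0 : ℝ) + d.n1 * e) * (1 - x ^ 2 * e)

/-- The coefficient of the shadow in `(v - 1) ^ 2 / v`: in general, or up to one. -/
noncomputable def kap (low : Bool) (v : ℝ) : ℝ :=
  bif low then (17 * v + 4) / (20 * v + 22) else (2 * v + 1) / (2 * (v + 2))

/-- A sharper rational lower bound of the logarithm up to one. -/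
theorem low_le_log {v : ℝ} (hv : 0 < v) (hv1 : v ≤ 1) :
    (v - 1) - (17 * v + 4) / (20 * v + 22) * ((v - 1) ^ 2 / v) ≤ Real.log v := by
  have hanti : AntitoneOn (fun y : ℝ => Real.log y - (y - 1) +
      (17 * y + 4) * (y - 1) ^ 2 / ((20 * y + 22) * y)) (Ioc 0 1) := by
    refine antitoneOn_of_hasDerivWithinAt_nonpos (convex_Ioc 0 1)
      (f' := fun y => (1 - y) ^ 3 * (60 * y - 88) / ((20 * y + 22) * y) ^ 2) ?_ (fun y hy => ?_)
      fun y hy => ?_
    · intro y hy
      have h2 : (20 * y + 22) * y ≠ 0 := (mul_pos (by linarith [hy.1]) hy.1).ne'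
      have h3 : y ≠ 0 := hy.1.ne'
      exact ContinuousAt.continuousWithinAt (by fun_prop (disch := assumption))
    all_goals rw [interior_Ioc] at hy
    · have h2 : (20 * y + 22) * y ≠ 0 := (mul_pos (by linarith [hy.1]) hy.1).ne'
      have h3 : y ≠ 0 := hy.1.ne'
      have h4 : 20 * y + 22 ≠ 0 := by linarith [hy.1]
      refine HasDerivAt.hasDerivWithinAt ?_
      refine (((Real.hasDerivAt_log h3).sub ((hasDerivAt_id y).sub_const 1)).add
        (((((hasDerivAt_id y).const_mul 17).add_const 4).mul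
          (((hasDerivAt_id y).sub_const 1).pow 2)).div
        ((((hasDerivAt_id y).const_mul 20).add_const 22).mul (hasDerivAt_id y)) h2)).congr_deriv ?_
      simp only [id, Pi.mul_apply, Pi.pow_apply]
      push_cast
      rw [eq_div_iff (pow_ne_zero 2 h2), add_mul, div_mul_cancel₀ _ (pow_ne_zero 2 h2),
        inv_eq_one_div, div_sub_one h3, div_mul_eq_mul_div,
        show (1 - y) * ((20 * y + 22) * y) ^ 2 / y = (1 - y) * ((20 * y + 22) ^ 2 * y) by
          field_simp]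
      ring
    · exact div_nonpos_of_nonpos_of_nonneg (mul_nonpos_of_nonneg_of_nonpos
        (pow_nonneg (by linarith [hy.2]) 3) (by linarith [hy.2])) (sq_nonneg _)
  have h := hanti ⟨hv, hv1⟩ ⟨one_pos, le_rfl⟩ hv1
  simp at h
  have e : (17 * v + 4) / (20 * v + 22) * ((v - 1) ^ 2 / v) =
      (17 * v + 4) * (v - 1) ^ 2 / ((20 * v + 22) * v) := div_mul_div_comm _ _ _ _
  linarith

/-- The cancelled cell above its quadratic, with either shadow. -/
theorem cancelExpr_quad_kap {gam nu ell g : ℝ} {low : Bool} (hgam : 0 ≤ gam) (k k' β β' : ℝ → ℝ)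
    {top s t a r q : ℝ} (h : FlatState p top s t a r q) (hlv : low = true → 1 / r ≤ 1) :
    ell * wS p (arc s) + cancelU p gam k s * (1 / r - 1) + cancelD p nu k k' s * (t - s) +
        (cancelUU p gam nu g s (1 / r) + gam * Ident.b0 p / ((p : ℝ) + 1) / arc s *
          ((2 * (1 / r) + 1) / (2 * (1 / r + 2)) - kap low (1 / r))) *
            ((1 / r - 1) ^ 2 / (1 / r)) +
        cancelDD p nu g β β' s (1 / r) * (t - s) ^ 2 +
        cancelUD nu g β s (1 / r) * ((1 / r - 1) * (t - s)) ≤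
      cancelExpr p gam nu ell (fun s t => s + g * (s - t)) (fun _ _ => 1 + g) (fun _ _ => -g)
        (quadPot k β) (quadPotS k k' β β') (quadPotT k β) s t a r := by
  cases low with
  | false =>
    simp only [kap, cond_false, sub_self, mul_zero, add_zero]
    exact cancelExpr_quad_ge hgam k k' β β' h
  | true =>
    have hv : 0 < 1 / r := one_div_pos.2 h.state.rate_pos
    have hb := Ident.b0_pos p
    have hc := h.state.arc_pos'
    have hl := low_le_log hv (hlv rfl)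
    rw [one_div r, Real.log_inv, ← one_div] at hl
    have hr := h.state.rate_pos.ne'
    have hsh : gam * Ident.b0 p / ((p : ℝ) + 1) / arc s * ((1 / r - 1) -
          (17 * (1 / r) + 4) / (20 * (1 / r) + 22) * ((1 / r - 1) ^ 2 / (1 / r))) ≤
        gam * Ident.b0 p * (1 / a - 1 / arc s) := by
      refine le_trans (mul_le_mul_of_nonneg_left hl (by positivity)) ?_
      refine le_trans (le_of_eq ?_)
        (mul_le_mul_of_nonneg_left h.inv_excess (mul_nonneg hgam hb.le))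
      field_simp
    have e : nu * testDef p g s t r +
        nullPart p (quadPot k β) (quadPotS k k' β β') (quadPotT k β) s t r =
        k s * (1 / r - 1) + (k' s - potRate p s * k s) * (t - s) +
          2 * nu * (1 + g) * (1 - s ^ 2) * ((1 / r - 1) ^ 2 / (1 / r)) +
          cancelDD p nu g β β' s (1 / r) * (t - s) ^ 2 +
          cancelUD nu g β s (1 / r) * ((1 / r - 1) * (t - s)) := by
      simp only [testDef, nullPart, quadPot, quadPotS, quadPotT, cancelDD, cancelUD, potRate]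
      field_simp
      ring
    simp only [cancelExpr, testGen_affine g s t hr]
    simp only [kap, cond_true, cancelU, cancelD, cancelUU]
    linarith

/-- The quadratic left by the cancellation, at given multiplier and `1 / arc`, with the
remainder `R`. -/
noncomputable def core (d : Data) (x e nu ic κ R v δ : ℝ) : ℝ :=
  R + elam toReal d (x ^ 2) e * (v - 1) +
    (2 * nu * (1 + d.g) * (1 - x ^ 2 * e) - gg toReal d e * ic * κ) *
      ((v - 1) ^ 2 / v) +
    x ^ 2 * slopeAt d x e ic / (1 - x ^ 2 * e) * δ +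
    ((d.a : ℝ) * (x ^ 2 + x ^ 2 * e + 1) - nu * (x ^ 2 + 3 * (x ^ 2 * e)) * (d.g : ℝ) ^ 2 +
      2 * d.g * (1 + d.g) * (nu * (x ^ 2 * e)) / v) * δ ^ 2 +
    (-2 * d.a * (1 - x ^ 2 * e) + 2 * (1 - (d.g : ℝ) ^ 2) * (nu * (x ^ 2 * e)) / v) *
      ((v - 1) * δ)

theorem interval_nonneg {a b t lo hi : ℝ} (ht : t ∈ Icc lo hi) (h0 : 0 ≤ a + b * lo)
    (h1 : 0 ≤ a + b * hi) : 0 ≤ a + b * t := by
  rcases le_total 0 b with hb | hb
  · linarith [mul_le_mul_of_nonneg_left ht.1 hb]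
  · linarith [mul_le_mul_of_nonpos_left ht.2 hb]

/-- The corners give the rectangle. -/
theorem core_between {x e κ R v δ nu nl nh ic il ih : ℝ} (hn : nu ∈ Icc nl nh) (hi : ic ∈ Icc il ih)
    (h1 : 0 ≤ core d x e nl il κ R v δ) (h2 : 0 ≤ core d x e nl ih κ R v δ)
    (h3 : 0 ≤ core d x e nh il κ R v δ) (h4 : 0 ≤ core d x e nh ih κ R v δ) :
    0 ≤ core d x e nu ic κ R v δ := by
  have aff : ∀ n i, core d x e n i κ R v δ = core d x e 0 0 κ R v δ +
      (core d x e 1 0 κ R v δ - core d x e 0 0 κ R v δ) * n +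
      (core d x e 0 1 κ R v δ - core d x e 0 0 κ R v δ) * i := fun n i => by
    simp only [core, slopeAt]; ring
  rw [aff] at h1 h2 h3 h4 ⊢
  set A := core d x e 0 0 κ R v δ
  set B := core d x e 1 0 κ R v δ - A
  set C := core d x e 0 1 κ R v δ - A
  have a1 := interval_nonneg (a := A + B * nl) hi h1 h2
  have a2 := interval_nonneg (a := A + B * nh) hi h3 h4
  have := interval_nonneg (a := A + C * ic) (b := B) hn (by linarith) (by linarith)
  linarith

/-- The vertex of the quadratic in `(u, δ)`. -/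
theorem quad_two_nonneg {P el A B S c a u δ : ℝ} (hB : 0 < B) (hc : 0 < c)
    (hV : 0 < A * B - a ^ 2 * c ^ 2)
    (hN : 0 ≤ (A * B - a ^ 2 * c ^ 2) * (4 * P * B * c ^ 2 - S ^ 2) -
      c ^ 2 * (el * B + a * S) ^ 2) :
    0 ≤ P + el * u + A * u ^ 2 + S / c * δ + B * δ ^ 2 + -2 * a * c * (u * δ) := by
  refine (mul_nonneg_iff_of_pos_left
    (show 0 < 4 * B * c ^ 2 * (A * B - a ^ 2 * c ^ 2) by positivity)).1 ?_
  refine (add_nonneg hN (add_nonneg (sq_nonneg (c * (2 * (A * B - a ^ 2 * c ^ 2) * u + (el * B + a * S))))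
    (mul_nonneg hV.le (sq_nonneg (2 * B * c * δ + S - 2 * a * c ^ 2 * u))))).trans (le_of_eq ?_)
  field_simp
  ring

/-- The part in `1 / v` completes the square, up to `v1`. -/
theorem split_ge {n g phi z c k G c0 v v1 u δ : ℝ} (hn : 0 ≤ n) (hz : 0 ≤ z) (hg : 0 < g)
    (hphi : 0 < phi) (hphi1 : phi ≤ 1) (hv : 0 < v) (hv1 : v ≤ v1) (hG : 0 ≤ G * c0)
    (hk : k = (2 * v1 + 1) / (2 * (v1 + 2)))
    (hA : 0 ≤ (1 + g) * n * (2 * c - (1 - g) ^ 2 / (2 * g * phi) * z) - G * c0 * k) :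
    ((1 + g) * n * (2 * c - (1 - g) ^ 2 / (2 * g * phi) * z) - G * c0 * k) / v1 * u ^ 2 +
        (1 - phi) / v1 * (2 * g * (1 + g) * (n * z)) * δ ^ 2 ≤
      (2 * n * (1 + g) * c - G * c0 * ((2 * v + 1) / (2 * (v + 2)))) * (u ^ 2 / v) +
        2 * g * (1 + g) * (n * z) / v * δ ^ 2 + 2 * (1 - g ^ 2) * (n * z) / v * (u * δ) := by
  have g1 : 0 < 1 + g := by linarith
  have hkv : (2 * v + 1) / (2 * (v + 2)) ≤ k := by
    rw [hk, div_le_div_iff₀ (by linarith) (by linarith)]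
    linarith
  have hA' : (1 + g) * n * (2 * c - (1 - g) ^ 2 / (2 * g * phi) * z) - G * c0 * k ≤
      (1 + g) * n * (2 * c - (1 - g) ^ 2 / (2 * g * phi) * z) -
        G * c0 * ((2 * v + 1) / (2 * (v + 2))) := by
    linarith [mul_le_mul_of_nonneg_left hkv hG]
  have h1 := mul_le_mul_of_nonneg_right (div_le_div₀ (hA.trans hA') hA' hv hv1) (sq_nonneg u)
  have h2 : (1 - phi) * (2 * g * (1 + g) * (n * z)) / v1 ≤
      (1 - phi) * (2 * g * (1 + g) * (n * z)) / v :=
    div_le_div_of_nonneg_left (mul_nonneg (by linarith) (by positivity)) hv hv1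
  have h2' := mul_le_mul_of_nonneg_right h2 (sq_nonneg δ)
  have e : (2 * n * (1 + g) * c - G * c0 * ((2 * v + 1) / (2 * (v + 2)))) * (u ^ 2 / v) +
      2 * g * (1 + g) * (n * z) / v * δ ^ 2 + 2 * (1 - g ^ 2) * (n * z) / v * (u * δ) =
      ((1 + g) * n * (2 * c - (1 - g) ^ 2 / (2 * g * phi) * z) -
        G * c0 * ((2 * v + 1) / (2 * (v + 2)))) / v * u ^ 2 +
      (1 - phi) * (2 * g * (1 + g) * (n * z)) / v * δ ^ 2 +
      n * (1 + g) * z / (2 * g * phi * v) * (2 * g * phi * δ + (1 - g) * u) ^ 2 := by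
    field_simp
    ring
  rw [e, div_mul_eq_mul_div (1 - phi)]
  have : 0 ≤ n * (1 + g) * z / (2 * g * phi * v) * (2 * g * phi * δ + (1 - g) * u) ^ 2 := by
    positivity
  linarith

/-- The quadratic up to `v1`. -/
theorem core_near {x e v δ : ℝ} {i : Corner} {P : Piece} (hv : 0 < v) (hv1 : v ≤ (d.v1 : ℝ))
    (hg : 0 < (d.g : ℝ)) (hphi : 0 < (d.phi : ℝ)) (hphi1 : (d.phi : ℝ) ≤ 1)
    (hnu : 0 ≤ nu toReal d i e) (hG : 0 ≤ gg toReal d e) (hic : 0 ≤ ic toReal i P (x ^ 2) e)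
    (he : 0 ≤ e) (hz : x ^ 2 * e < 1) (hB : 0 < bnear toReal d i (x ^ 2) e)
    (hV : 0 < vertex toReal d i P (x ^ 2) e) (hN : 0 ≤ nearClaim toReal d i P (x ^ 2) e) :
    0 ≤ core d x e (nu toReal d i e) (ic toReal i P (x ^ 2) e) (kap false v)
      (rest toReal (x ^ 2) e d.terms) v δ := by
  obtain ⟨z, hzd⟩ : ∃ z, x ^ 2 * e = z := ⟨_, rfl⟩
  have hz0 : 0 ≤ z := hzd ▸ mul_nonneg (sq_nonneg x) he
  have hc : 0 < 1 - z := by linarith
  have hv10 : 0 < (d.v1 : ℝ) := hv.trans_le hv1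
  have hA : 0 ≤ lead toReal d i P (x ^ 2) e := by
    by_contra h
    simp only [vertex] at hV
    simp only [toReal] at hV
    push_cast at hV
    linarith [mul_neg_of_neg_of_pos (mul_neg_of_neg_of_pos (not_le.1 h) (one_div_pos.2 hv10)) hB,
      mul_nonneg (sq_nonneg (d.a : ℝ)) (sq_nonneg (cz toReal (x ^ 2) e))]
  simp only [nearClaim, vertex] at hV hN
  simp only [slope, cz, toReal] at hN hV
  push_cast at hN hV
  simp only [lead, cz, toReal] at hA hN hV
  push_cast at hA hN hV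
  rw [hzd] at hA hN hV
  have hs := split_ge (n := nu toReal d i e) (c := 1 - z) (G := gg toReal d e) (c0 := ic toReal i P (x ^ 2) e)
    (u := v - 1) (δ := δ) hnu hz0 hg hphi hphi1 hv hv1 (mul_nonneg hG hic) rfl hA
  have hq := quad_two_nonneg (P := rest toReal (x ^ 2) e d.terms) (el := elam toReal d (x ^ 2) e)
    (A := ((1 + (d.g : ℝ)) * nu toReal d i e *
        (2 * (1 - z) - (1 - (d.g : ℝ)) ^ 2 / (2 * d.g * d.phi) * z) -
      gg toReal d e * ic toReal i P (x ^ 2) e * ((2 * (d.v1 : ℝ) + 1) / (2 * (d.v1 + 2)))) / d.v1)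
    (a := (d.a : ℝ))
    (S := x ^ 2 * ((1 - e) * (gg toReal d e * ic toReal i P (x ^ 2) e) +
      e * (2 * (d.l1 : ℝ) * (1 - z) - d.l0 - d.l1 * x ^ 2) -
      2 * (1 + 3 * e) * ((d.n0 : ℝ) + d.n1 * e) * (1 - z)))
    (u := v - 1) (δ := δ) hB hc (hV.trans_le (le_of_eq (by ring)))
    (hN.trans (le_of_eq (by ring)))
  simp only [bnear, bsq, bdiv, toReal] at hq
  push_cast at hq
  rw [hzd] at hq
  simp only [core, kap, cond_false, slopeAt, hzd]
  linarith

/-- The quadratic at a value certified by the exact discriminant. -/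
theorem core_far {x e v δ : ℝ} {low : Bool} {i : Corner} {P : Piece} (hv : 0 < v)
    (hg : 0 < (d.g : ℝ)) (hnu : 0 ≤ nu toReal d i e) (he : 0 ≤ e) (hz : x ^ 2 * e < 1)
    (hB : 0 < bsq toReal d i (x ^ 2) e) (hW : 0 ≤ whole toReal d low i P (x ^ 2) e (v * (1 - x ^ 2 * e))) :
    0 ≤ core d x e (nu toReal d i e) (ic toReal i P (x ^ 2) e) (kap low v)
      (rest toReal (x ^ 2) e d.terms) v δ := by
  obtain ⟨z, hzd⟩ : ∃ z, x ^ 2 * e = z := ⟨_, rfl⟩
  have hz0 : 0 ≤ z := hzd ▸ mul_nonneg (sq_nonneg x) he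
  have hc : 0 < 1 - z := by linarith
  obtain ⟨N, D, hD, hk, hN', hD'⟩ : ∃ N D : ℝ, 0 < D ∧ kap low v = N / D ∧
      shadN toReal low (1 - z) (v * (1 - z)) = (1 - z) * N ∧
      shadD toReal low (1 - z) (v * (1 - z)) = (1 - z) * D := by
    cases low
    · exact ⟨2 * v + 1, 2 * (v + 2), by positivity, rfl, by simp [shadN, toReal]; ring,
        by simp [shadD, toReal]; ring⟩
    · exact ⟨17 * v + 4, 20 * v + 22, by positivity, rfl, by simp [shadN, toReal]; ring,
        by simp [shadD, toReal]; ring⟩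
  simp only [whole, slope] at hW
  rw [show cz toReal (x ^ 2) e = 1 - z by simp [cz, toReal, hzd], hzd, hN', hD'] at hW
  rw [hk]
  simp only [toReal] at hW
  push_cast at hW
  simp only [bsq, bdiv, toReal] at hB hW
  push_cast at hB hW
  rw [hzd] at hB hW
  set n := nu toReal d i e with hn
  set G := gg toReal d e with hG'
  set c0 := ic toReal i P (x ^ 2) e with hc0
  set P0 := rest toReal (x ^ 2) e d.terms with hP0
  set el := elam toReal d (x ^ 2) e with hel
  set S := x ^ 2 * ((1 - e) * (G * c0) + e * (2 * (d.l1 : ℝ) * (1 - z) - d.l0 - d.l1 * x ^ 2) -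
    2 * (1 + 3 * e) * ((d.n0 : ℝ) + d.n1 * e) * (1 - z)) with hS
  set K := 2 * (d.g : ℝ) * (1 + d.g) * (n * z) with hK
  set B0 := (d.a : ℝ) * (x ^ 2 + z + 1) - n * (x ^ 2 + 3 * z) * (d.g : ℝ) ^ 2 with hB0
  have hK0 : 0 ≤ K := by
    have : 0 < 1 + (d.g : ℝ) := by linarith
    positivity
  have hBv : 0 < B0 * v + K := add_pos_of_pos_of_nonneg (mul_pos hB hv) hK0
  refine (mul_nonneg_iff_of_pos_left
    (show 0 < 4 * D * (B0 * v + K) * ((1 - z) ^ 5 * v) by positivity)).1 ?_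
  refine (add_nonneg hW (mul_nonneg (show 0 ≤ (1 - z) ^ 3 * D by positivity)
    (sq_nonneg (2 * (B0 * v + K) * (1 - z) * δ + S * v +
      (1 - z) * (-2 * (d.a : ℝ) * (1 - z) * v + 2 * (1 - (d.g : ℝ) ^ 2) * (n * z)) * (v - 1))))).trans
    (le_of_eq ?_)
  simp only [core, slopeAt, hzd, ← hel, ← hG', ← hS]
  rw [← hB0, ← hK]
  rw [hS, hB0, hK]
  field_simp
  ring

/-- The rational conditions on the constants, over the reals. -/
structure DataFacts (d : Data) : Prop where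
  range : 19 ≤ d.mlo ∧ d.mlo ≤ d.mhi ∧ d.mhi ≤ 98
  hk_ge : 1 ≤ (d.hk : ℝ) ∧ 157085 / 100000 * (((d.mlo : ℝ) + 2) / ((d.mlo : ℝ) + 1)) ≤ (d.hk : ℝ) ^ 2
  g_pos : 0 < (d.g : ℝ)
  g_le : (d.g : ℝ) ≤ 1
  a_pos : 0 < (d.a : ℝ)
  z2_mem : 0 < (d.z2 : ℝ) ∧ (d.z2 : ℝ) < 1
  phi_mem : 0 < (d.phi : ℝ) ∧ (d.phi : ℝ) < 1
  v1_gt : 1 < (d.v1 : ℝ)
  nu_nonneg : ∀ e ∈ Icc (1 / (d.mhi : ℝ)) (1 / (d.mlo : ℝ)),
    0 ≤ (d.n0 : ℝ) - 3 / 8 + ((d.n1 : ℝ) + 229 / 200) * e
  gg_nonneg : ∀ e ∈ Icc (1 / (d.mhi : ℝ)) (1 / (d.mlo : ℝ)), 0 ≤ gg toReal d e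
  gap : ∀ e ∈ Icc (1 / (d.mhi : ℝ)) (1 / (d.mlo : ℝ)),
    ((d.n0 : ℝ) - 3 / 8 + ((d.n1 : ℝ) + 7 / 5) * e) * (1 + 3 * e) * (d.g : ℝ) ^ 2 ≤ d.a
  chain : okChain d.z2 d.mhi 0 d.pieces = true
  pieces : ∀ P ∈ d.pieces, okPiece d P = true

theorem data_facts (h : okData d = true) : DataFacts d := by
  simp only [okData, Bool.and_eq_true, decide_eq_true_eq, List.all_eq_true] at h
  obtain ⟨⟨⟨⟨⟨⟨⟨⟨⟨⟨⟨⟨⟨⟨⟨⟨⟨⟨⟨⟨r1, r2⟩, r3⟩, r4⟩, r5⟩, h1⟩, h2⟩, h3⟩, h4⟩, h5⟩, h6⟩, h7⟩, h8⟩,
    h9⟩, h10⟩, h11⟩, h12⟩, h13⟩, h14⟩, h15⟩, h16⟩ := h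
  have c4 := (Rat.cast_le (K := ℝ)).2 r4
  have c5 := (Rat.cast_le (K := ℝ)).2 r5
  push_cast at c4 c5
  have c9 := (Rat.cast_le (K := ℝ)).2 h9
  have c10 := (Rat.cast_le (K := ℝ)).2 h10
  have c11 := (Rat.cast_le (K := ℝ)).2 h11
  have c12 := (Rat.cast_le (K := ℝ)).2 h12
  have c13 := (Rat.cast_le (K := ℝ)).2 h13
  have c14 := (Rat.cast_le (K := ℝ)).2 h14
  push_cast at c9 c10 c11 c12 c13 c14
  have nun : ∀ e ∈ Icc (1 / (d.mhi : ℝ)) (1 / (d.mlo : ℝ)),
      0 ≤ (d.n0 : ℝ) - 3 / 8 + ((d.n1 : ℝ) + 229 / 200) * e := fun e he =>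
    interval_nonneg he (by linear_combination c9) (by linear_combination c10)
  have g1 : (0 : ℝ) < d.g := by exact_mod_cast h1
  have a1 : (0 : ℝ) < d.a := by exact_mod_cast h3
  refine ⟨⟨r1, r2, r3⟩, ⟨c4, c5⟩, g1, by exact_mod_cast h2, a1, ⟨by exact_mod_cast h4, by exact_mod_cast h5⟩,
    ⟨by exact_mod_cast h6, by exact_mod_cast h7⟩, by exact_mod_cast h8, nun, fun e he => ?_,
    fun e he => ?_, h15, h16⟩
  · simp only [gg, toReal]
    push_cast
    exact interval_nonneg he (by linear_combination c11) (by linear_combination c12)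
  · have h0 := interval_nonneg (a := (d.a : ℝ) - ((d.n0 : ℝ) - 3 / 8) * (1 + 3 / (d.mlo : ℝ)) * (d.g : ℝ) ^ 2)
      (b := -((d.n1 : ℝ) + 7 / 5) * (1 + 3 / (d.mlo : ℝ)) * (d.g : ℝ) ^ 2) he
      (by linear_combination c13) (by linear_combination c14)
    have hn := nun e he
    have h3' : 1 + 3 * e ≤ 1 + 3 / (d.mlo : ℝ) := by linarith [he.2, mul_one_div (3 : ℝ) (d.mlo : ℝ)]
    have := mul_le_mul_of_nonneg_right (mul_le_mul_of_nonneg_left h3'
      (show 0 ≤ (d.n0 : ℝ) - 3 / 8 + ((d.n1 : ℝ) + 7 / 5) * e by linarith [(le_trans (by positivity) he.1 : (0 : ℝ) ≤ e)]))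
      (sq_nonneg (d.g : ℝ))
    linarith

/-- An order of the cell. -/
structure InRange (d : Data) (p : ℕ) : Prop where
  lo : d.mlo ≤ p + 1
  hi : p + 1 ≤ d.mhi
  base : 19 ≤ d.mlo
  top : d.mhi ≤ 98

theorem InRange.ge (h : InRange d p) : 18 ≤ p := by have := h.lo; have := h.base; omega

theorem InRange.le (h : InRange d p) : p ≤ 97 := by have := h.hi; have := h.top; omega

theorem InRange.cast (h : InRange d p) :
    (19 : ℝ) ≤ d.mlo ∧ (d.mlo : ℝ) ≤ (p : ℝ) + 1 ∧ (p : ℝ) + 1 ≤ (d.mhi : ℝ) ∧ (18 : ℝ) ≤ p :=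
  ⟨by exact_mod_cast h.base, by exact_mod_cast h.lo, by exact_mod_cast h.hi,
    by exact_mod_cast h.ge⟩

/-- The multiplier of the excess lies between its corners. -/
theorem nuM_mem (hp : InRange d p) :
    nuM p d ∈ Icc (nu toReal d .ll (1 / ((p : ℝ) + 1))) (nu toReal d .hl (1 / ((p : ℝ) + 1))) := by
  obtain ⟨h1, h2⟩ := muMin_bounds hp.ge hp.le
  simp only [nu, nuM, Corner.shift, toReal, mem_Icc]
  push_cast
  constructor <;>
    linarith [mul_one_div (14 / 5 : ℝ) ((p : ℝ) + 1), mul_one_div (229 / 100 : ℝ) ((p : ℝ) + 1)]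

/-- The range of `1 / (p + 1)`. -/
theorem e_mem (hp : InRange d p) :
    1 / ((p : ℝ) + 1) ∈ Icc (1 / (d.mhi : ℝ)) (1 / (d.mlo : ℝ)) := by
  obtain ⟨h0, h1, h2, -⟩ := hp.cast
  exact ⟨one_div_le_one_div_of_le (by positivity) h2, one_div_le_one_div_of_le (by linarith) h1⟩

theorem nuM_nonneg (hd : DataFacts d) (hp : InRange d p) : 0 ≤ nuM p d := by
  refine le_trans ?_ (nuM_mem (d := d) hp).1
  have := hd.nu_nonneg _ (e_mem hp)
  simp only [nu, Corner.shift, toReal]
  push_cast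
  linarith

/-- The quadratic left by the cancellation is the core at the true constants. -/
theorem cancel_eq_core (hp : 1 ≤ p) {s t v κ R : ℝ} (hs : s ∈ Ioo (0 : ℝ) 1) (hv : 0 < v) :
    R + cancelU p (gamM p d) (potK p d) s * (v - 1) +
        cancelD p (nuM p d) (potK p d) (potK' p d) s * (t - s) +
        (cancelUU p (gamM p d) (nuM p d) d.g s v + gamM p d * Ident.b0 p / ((p : ℝ) + 1) / arc s *
          ((2 * v + 1) / (2 * (v + 2)) - κ)) * ((v - 1) ^ 2 / v) +
        cancelDD p (nuM p d) d.g (potB d) (potB' d) s v * (t - s) ^ 2 +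
        cancelUD (nuM p d) d.g (potB d) s v * ((v - 1) * (t - s)) =
      core d (√((p : ℝ) + 1) * s) (1 / ((p : ℝ) + 1)) (nuM p d) (1 / arc s) κ R v ((t - s) / s) := by
  obtain ⟨m, hm, hmp⟩ : ∃ m : ℝ, 0 < m ∧ (p : ℝ) + 1 = m := ⟨_, by positivity, rfl⟩
  have h0 : 0 < 1 - s ^ 2 := by nlinarith [hs.1, hs.2]
  have hc : 0 < arc s := Real.sqrt_pos.2 h0
  have hc2 : arc s ^ 2 = 1 - s ^ 2 := Real.sq_sqrt h0.le
  have hb := (Ident.b0_pos p).ne'
  have hx : (√((p : ℝ) + 1) * s) ^ 2 = m * s ^ 2 := by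
    rw [mul_pow, Real.sq_sqrt (by positivity), hmp]
  have hz : m * s ^ 2 * (1 / m) = s ^ 2 := by field_simp
  have h4 : ((p : ℝ) + 4) ≠ 0 := by positivity
  have e1 : sqCoef p + ((p : ℝ) + 4) * (nuM p d - nuS p) =
      ((p : ℝ) + 4) * ((d.n0 : ℝ) + d.n1 * (1 / ((p : ℝ) + 1))) := by
    rw [nuM, nuS, sqCoef]
    field_simp
    ring
  have e3 : gamM p d * Ident.b0 p / ((p : ℝ) + 1) = gg toReal d (1 / ((p : ℝ) + 1)) := by
    rw [gamM]; field_simp
  have hU : cancelU p (gamM p d) (potK p d) s = elam toReal d ((√((p : ℝ) + 1) * s) ^ 2) (1 / m) := by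
    rw [cancelU, e3, potK]
    simp only [elam, toReal]
    rw [hx, hmp]
    field_simp
    ring
  have hD : cancelD p (nuM p d) (potK p d) (potK' p d) s * (t - s) =
      (√((p : ℝ) + 1) * s) ^ 2 * slopeAt d (√((p : ℝ) + 1) * s) (1 / m) (1 / arc s) /
        (1 - s ^ 2) * ((t - s) / s) := by
    rw [cancelD, e1, potRate, potK, potK', slopeAt, hx, hz, hmp,
      show (p : ℝ) + 4 = m + 3 by linarith, ← hc2]
    have := hs.1.ne'
    field_simp
    ring
  have hUU : cancelUU p (gamM p d) (nuM p d) d.g s v + gamM p d * Ident.b0 p / ((p : ℝ) + 1) /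
      arc s * ((2 * v + 1) / (2 * (v + 2)) - κ) =
      2 * nuM p d * (1 + d.g) * (1 - s ^ 2) - gg toReal d (1 / m) * (1 / arc s) * κ := by
    rw [cancelUU, e3, hmp, mul_one_div]
    ring
  have hDD : cancelDD p (nuM p d) d.g (potB d) (potB' d) s v * (t - s) ^ 2 =
      ((d.a : ℝ) * (m * s ^ 2 + s ^ 2 + 1) - nuM p d * (m * s ^ 2 + 3 * s ^ 2) * (d.g : ℝ) ^ 2 +
        2 * d.g * (1 + d.g) * (nuM p d * s ^ 2) / v) * ((t - s) / s) ^ 2 := by
    have hr : potB' d s - potRate p s * potB d s = (d.a : ℝ) * ((p : ℝ) + 2 + 1 / s ^ 2) :=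
      (polePot_null p (d.a : ℝ) hs).2
    rw [cancelDD, hr, show (p : ℝ) + 2 = m + 1 by linarith, show (p : ℝ) + 4 = m + 3 by linarith]
    have := hs.1.ne'
    field_simp
    ring
  have hUD : cancelUD (nuM p d) d.g (potB d) s v * ((v - 1) * (t - s)) =
      (-2 * d.a * (1 - s ^ 2) + 2 * (1 - (d.g : ℝ) ^ 2) * (nuM p d * s ^ 2) / v) *
        ((v - 1) * ((t - s) / s)) := by
    have := hs.1.ne'
    rw [cancelUD, potB]
    field_simp
    ring
  rw [hU, hD, hUU, hDD, hUD]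
  simp only [core]
  rw [hx, hmp, hz]
  ring

/-- The cancelled cell at the inner abscissae. -/
theorem bulk_ge (hd : Good d) (hp : InRange d p) {ell s t a r q : ℝ}
    (h : FlatState p ell s t a r q) (h0 : 0 ≤ ell) (hE : Real.exp ell ≤ d.ev)
    (hz : s ^ 2 ≤ (d.z2 : ℝ)) :
    ell * wS p (arc s) -
        rest toReal ((√((p : ℝ) + 1) * s) ^ 2) (1 / ((p : ℝ) + 1)) d.terms ≤
      cancelExpr p (gamM p d) (nuM p d) ell (fun s t => s + (d.g : ℝ) * (s - t))
        (fun _ _ => 1 + (d.g : ℝ)) (fun _ _ => -(d.g : ℝ)) (quadPot (potK p d) (potB d))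
        (quadPotS (potK p d) (potK' p d) (potB d) (potB' d))
        (quadPotT (potK p d) (potB d)) s t a r := by
  have hs := h.state.s_mem
  have D := data_facts hd.ok
  have he := e_mem hp
  have hm : (0 : ℝ) < (p : ℝ) + 1 := by positivity
  have hb := Ident.b0_pos p
  have hgam : 0 ≤ gamM p d := by
    have := D.gg_nonneg _ he
    unfold gamM
    positivity
  set e := 1 / ((p : ℝ) + 1) with hed
  set x := √((p : ℝ) + 1) * s with hxd
  obtain ⟨v, hv, hrv⟩ : ∃ v, 0 < v ∧ 1 / r = v := ⟨_, one_div_pos.2 h.state.rate_pos, rfl⟩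
  have hxz : x ^ 2 * e = s ^ 2 := by
    rw [hxd, hed, mul_pow, Real.sq_sqrt hm.le]; field_simp
  have hx0 : 0 ≤ x := mul_nonneg (Real.sqrt_nonneg _) hs.1.le
  have hP0 : ∀ P ∈ d.pieces, P.xa ≤ P.xb := fun P hP => by
    exact_mod_cast (piece_facts (D.pieces P hP)).xa_le
  obtain ⟨P, hP, hx⟩ : ∃ P ∈ d.pieces, x ∈ Icc (P.xa : ℝ) (P.xb : ℝ) := by
    refine (exists_piece (e := e) (M := d.mhi) (by have := hp.lo; have := hp.hi; omega) d.pieces 0 D.chain le_rfl (by simpa using hx0) (hxz.trans_le hz)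
      he.1 hP0).resolve_left fun h0 => ?_
    have hch := D.chain
    rw [h0] at hch
    simp only [okChain, decide_eq_true_eq] at hch
    have : (d.z2 : ℝ) * d.mhi ≤ 0 := by
      have := (Rat.cast_le (K := ℝ)).2 hch
      push_cast at this
      simpa using this
    have h17 : (0 : ℝ) < d.mhi := by have := hp.cast; linarith
    linarith [mul_pos D.z2_mem.1 h17]
  have F := piece_facts (D.pieces P hP)
  have C := hd.checks P hP
  have he' : e ∈ Icc (1 / (d.mhi : ℝ)) (P.eh : ℝ) := by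
    refine ⟨he.1, F.eh_cover.elim (fun h => he.2.trans h) fun h => ?_⟩
    rcases eq_or_lt_of_le F.xa_nonneg with hxa | hxa
    · rw [← hxa] at h
      linarith [D.z2_mem.1, show (P.eh : ℝ) * (0 : ℝ) ^ 2 = 0 by ring]
    · refine le_of_mul_le_mul_right ?_ (pow_pos hxa 2)
      refine le_trans ?_ h
      rw [mul_comm]
      exact ((mul_le_mul_of_nonneg_right (pow_le_pow_left₀ hxa.le hx.1 2)
        (le_trans (by positivity) he.1)).trans_eq hxz).trans hz
  obtain ⟨hlo, hhi⟩ := C.arc_lines (D.pieces P hP) hs hxz hx he' hz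
  have hz1 : x ^ 2 * e < 1 := by rw [hxz]; linarith [D.z2_mem.2]
  have he0 : 0 ≤ e := le_trans (by positivity) he.1
  obtain ⟨low, hlow⟩ : ∃ low : Bool, low = (!P.near && d.low && decide (v ≤ 1)) := ⟨_, rfl⟩
  have hlv : low = true → 1 / r ≤ 1 := fun hl => by
    rw [hlow, Bool.and_eq_true, decide_eq_true_eq] at hl
    exact hrv ▸ hl.2
  refine le_trans ?_ (cancelExpr_quad_kap hgam (potK p d) (potK' p d) (potB d) (potB' d) h hlv)
  rw [hrv]
  suffices hcore : 0 ≤ core d x e (nuM p d) (1 / arc s) (kap low v) (rest toReal (x ^ 2) e d.terms) v ((t - s) / s) by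
    rw [hxd, hed, ← cancel_eq_core (by have := hp.ge; omega) hs hv, ← hed, ← hxd] at hcore
    linarith
  have key : ∀ i, 0 ≤ core d x e (nu toReal d i e) (ic toReal i P (x ^ 2) e) (kap low v) (rest toReal (x ^ 2) e d.terms) v
      ((t - s) / s) := by
    intro i
    have hn : 0 ≤ nu toReal d i e := by
      have h1 := D.nu_nonneg e he
      cases i <;> simp only [nu, Corner.shift, toReal] <;> push_cast <;> linarith
    have hbs : 0 < bsq toReal d i (x ^ 2) e := by
      have h2 := D.gap e he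
      have h4 : nu toReal d i e * (x ^ 2 + 3 * (x ^ 2 * e)) * (d.g : ℝ) ^ 2 ≤ (d.a : ℝ) * x ^ 2 := by
        have h3 : nu toReal d i e ≤ (d.n0 : ℝ) - 3 / 8 + ((d.n1 : ℝ) + 7 / 5) * e := by
          cases i <;> simp only [nu, Corner.shift, toReal] <;> push_cast <;> linarith
        have := mul_le_mul_of_nonneg_right (mul_le_mul_of_nonneg_right h3
          (show 0 ≤ (1 + 3 * e) * (d.g : ℝ) ^ 2 by positivity)) (sq_nonneg x)
        linarith [mul_le_mul_of_nonneg_right h2 (sq_nonneg x)]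
      have := mul_nonneg D.a_pos.le (mul_nonneg (sq_nonneg x) he0)
      simp only [bsq, toReal]
      push_cast
      nlinarith [D.a_pos]
    have hic : 0 ≤ ic toReal i P (x ^ 2) e := by
      obtain ⟨⟨a1, a2⟩, a3, a4⟩ := F.lines_nonneg
      cases i <;> simp only [ic, Corner.ic0, Corner.ic1, toReal] <;> positivity
    have hbn : 0 < bnear toReal d i (x ^ 2) e := by
      have := D.g_pos
      have : 0 ≤ 1 - (d.phi : ℝ) := by linarith [D.phi_mem.2]
      have : 0 < (d.v1 : ℝ) := by linarith [D.v1_gt]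
      refine add_pos_of_pos_of_nonneg hbs ?_
      simp only [bdiv, toReal]
      push_cast
      positivity
    have htop : v * (1 - x ^ 2 * e) ≤ wtop toReal P (x ^ 2) e := by
      have hk2 : √((p : ℝ) + 3) * s ≤ x * (1 + e) := by
        rw [hxd, mul_assoc, mul_comm s, ← mul_assoc]
        refine mul_le_mul_of_nonneg_right ?_ hs.1.le
        refine (pow_le_pow_iff_left₀ (Real.sqrt_nonneg _) (by positivity) two_ne_zero).1 ?_
        rw [mul_pow, Real.sq_sqrt (by positivity), Real.sq_sqrt hm.le]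
        have e5 : ((p : ℝ) + 1) * e = 1 := by rw [hed]; field_simp
        have : 0 ≤ ((p : ℝ) + 1) * e ^ 2 := by positivity
        linarith
      set X := √((p : ℝ) + 3) * s with hX
      have hX1 : x ≤ X := mul_le_mul_of_nonneg_right
        (Real.sqrt_le_sqrt (by linarith)) hs.1.le
      have hH : half (p + 1) * √((p : ℝ) + 3) ≤ (d.hk : ℝ) :=
        Top.half_mul_sqrt_le (m0 := d.mlo) (by linarith [hp.cast.1]) hp.cast.2.1
          (by linarith [D.hk_ge.1]) D.hk_ge.2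
      obtain ⟨b0, b1, b2⟩ := F.base_mem
      have hr := inv_rate_le_rat h h0 hE hH b0 b1 (b2.trans (hx.1.trans hX1)) F.top_nonneg
        F.top_base
      rw [← hxz, div_eq_mul_one_div, hrv, mul_comm] at hr
      have hX0 : 0 ≤ X := hx0.trans hX1
      have hXa : (P.xa : ℝ) ≤ X := hx.1.trans hX1
      have hXx : X ^ 2 = x ^ 2 * (1 + 2 * e) := by
        rw [hX, hxd, mul_pow, mul_pow, Real.sq_sqrt (by positivity), Real.sq_sqrt hm.le, hed]
        field_simp
        ring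
      refine hr.trans (le_trans ?_ (show (P.w0 : ℝ) + P.w1 * X ^ 2 ≤ wtop toReal P (x ^ 2) e by
        simp only [wtop, toReal]
        push_cast
        rw [hXx]))
      refine max_le (F.ev_le.trans
        (by linarith [mul_le_mul_of_nonneg_left (pow_le_pow_left₀ F.xa_nonneg hXa 2) F.w1_nonneg])) ?_
      have hXb : X ≤ (P.xb : ℝ) * (1 + 1 / (d.mlo : ℝ)) :=
        hk2.trans (mul_le_mul hx.2 (by linarith [he.2]) (by linarith) (hx0.trans hx.2))
      exact C.top_line hX0 ⟨hXa, hXb⟩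
    have hc : 0 < 1 - x ^ 2 * e := by linarith
    have hfar : ∀ (k : Bool) (lo hi : ℝ), lo ≤ v * (1 - x ^ 2 * e) → v * (1 - x ^ 2 * e) ≤ hi →
        (∀ σ ∈ Icc (0 : ℝ) 1,
          0 ≤ whole toReal d k i P (x ^ 2) e (lo + σ * (hi - lo))) →
        0 ≤ core d x e (nu toReal d i e) (ic toReal i P (x ^ 2) e) (kap k v)
          (rest toReal (x ^ 2) e d.terms) v ((t - s) / s) := by
      intro k lo hi hlo' hhi' hall
      refine core_far hv D.g_pos hn he0 hz1 hbs ?_
      rcases eq_or_lt_of_le (hlo'.trans hhi') with e0 | e0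
      · have := hall 0 ⟨le_rfl, zero_le_one⟩
        rw [show v * (1 - x ^ 2 * e) = lo by linarith]
        simpa using this
      · have := hall ((v * (1 - x ^ 2 * e) - lo) / (hi - lo)) ⟨div_nonneg (by linarith) (by linarith),
          (div_le_one (by linarith)).2 (by linarith)⟩
        rwa [div_mul_cancel₀ _ (by linarith), add_sub_cancel] at this
    cases hn' : P.near with
    | true =>
      obtain rfl : low = false := by rw [hlow, hn']; rfl
      rcases le_or_gt v (d.v1 : ℝ) with hv1 | hv1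
      · exact core_near hv hv1 D.g_pos D.phi_mem.1 D.phi_mem.2.le hn (D.gg_nonneg e he) hic he0
          hz1 hbn (C.vertex_pos hn' i F.xa_nonneg hx he')
          (C.near_nonneg hn' i F.xa_nonneg hx he')
      · refine hfar false ((d.v1 : ℝ) * (1 - x ^ 2 * e)) _
          (mul_le_mul_of_nonneg_right hv1.le hc.le) htop fun σ hσ => ?_
        have h' := C.far_nonneg i F.xa_nonneg hx he' hσ
        simpa [farClaim, hn', cz, toReal] using h'
    | false =>
      cases hd' : d.low with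
      | false =>
        obtain rfl : low = false := by rw [hlow, hn', hd']; rfl
        refine hfar false 0 _ (mul_nonneg hv.le hc.le) htop fun σ hσ => ?_
        have h' := C.far_nonneg i F.xa_nonneg hx he' hσ
        simpa [farClaim, hn', hd', toReal] using h'
      | true =>
        rcases le_or_gt v 1 with hv1 | hv1
        · obtain rfl : low = true := by rw [hlow, hn', hd']; simp [hv1]
          refine hfar true 0 (1 - x ^ 2 * e) (mul_nonneg hv.le hc.le)
            (mul_le_of_le_one_left hc.le hv1) fun σ hσ => ?_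
          have h' := C.below_nonneg hn' hd' i F.xa_nonneg hx he' hσ
          simpa [lowClaim, cz, toReal] using h'
        · obtain rfl : low = false := by rw [hlow, hn', hd']; simp [hv1]
          refine hfar false (1 - x ^ 2 * e) _ (le_mul_of_one_le_left hc.le hv1.le) htop
            fun σ hσ => ?_
          have h' := C.far_nonneg i F.xa_nonneg hx he' hσ
          simpa [farClaim, hn', hd', cz, toReal] using h'
  have i0 : ic toReal Corner.ll P (x ^ 2) e = (P.lo0 : ℝ) + P.lo1 * s ^ 2 := by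
    simp only [ic, Corner.ic0, Corner.ic1, toReal, hxz]
  have i1 : ic toReal Corner.lh P (x ^ 2) e = (P.hi0 : ℝ) + P.hi1 * s ^ 2 := by
    simp only [ic, Corner.ic0, Corner.ic1, toReal, hxz]
  exact core_between (nuM_mem hp) ⟨i0.trans_le hlo, hhi.trans i1.ge⟩ (key .ll) (key .lh)
    (key .hl) (key .hh)

end Vale.Agent.P237.Petty.Cor.Mid50
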