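import Vale.Agent.P100.Bernstein.Cert
import Mathlib.Data.Rat.Cast.Defs

/-!
# P237: the polynomials of a cell for middle orders

The claims of a cell for `mlo ≤ p + 1 ≤ mhi ≤ 98`, written once over the reals and over the expressions of
the kernel check, with `y = (p + 1) s ^ 2`, `e = 1 / (p + 1)` and so `s ^ 2 = y e`.
-/

namespace Vale.Agent.P237.Petty.Cor.Mid50

/-- A range of the abscissa, with the bounds used on it. -/
structure Piece where
  /-- The left end, in `√(p + 1) s`. -/
  xa : ℚ
  /-- The right end. -/
  xb : ℚ
  /-- The largest `1 / (p + 1)`. -/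
  eh : ℚ
  /-- A line below `1 / arc`, in `s ^ 2`: the constant. -/
  lo0 : ℚ
  /-- A line below `1 / arc`: the slope. -/
  lo1 : ℚ
  /-- A line above `1 / arc`, in `s ^ 2`: the constant. -/
  hi0 : ℚ
  /-- A line above `1 / arc`: the slope. -/
  hi1 : ℚ
  /-- A line above the largest `(1 - s ^ 2) / r`: the constant. -/
  w0 : ℚ
  /-- A line above the largest `(1 - s ^ 2) / r`, in `(p + 3) s ^ 2`: the slope. -/
  w1 : ℚ
  /-- The abscissa of the hazard bound, times `√(p + 3)`. -/
  base : ℚ
  /-- The factor of the hazard bound. -/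
  top : ℚ
  /-- Whether the vertex is used up to `v1`. -/
  near : Bool

/-- A term `c y ^ j z ^ k` of the remainder. -/
structure Term where
  /-- The power of `y`. -/
  j : ℕ
  /-- The power of `z`. -/
  k : ℕ
  /-- The coefficient. -/
  c : ℚ

/-- The constants of a cell. -/
structure Data where
  /-- The least `p + 1`. -/
  mlo : ℕ
  /-- The greatest `p + 1`. -/
  mhi : ℕ
  /-- Above `half (p + 1) √(p + 3)`. -/
  hk : ℚ
  /-- The slope of the test. -/
  g : ℚ
  /-- The limit of the multiplier of the excess. -/
  n0 : ℚ
  /-- Its correction in `1 / (p + 1)`. -/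
  n1 : ℚ
  /-- The correction of the multiplier of the shadow. -/
  g1 : ℚ
  /-- The pole of the square potential. -/
  a : ℚ
  /-- The constant of the linear potential. -/
  l0 : ℚ
  /-- The slope of the linear potential. -/
  l1 : ℚ
  /-- The share of the part in `1 / v` completing the square. -/
  phi : ℚ
  /-- The end of the vertex. -/
  v1 : ℚ
  /-- The end of the pieces, for `s ^ 2`. -/
  z2 : ℚ
  /-- Above `exp ell`. -/
  ev : ℚ
  /-- Whether the pieces without a vertex use the second shadow up to `v = 1`. -/
  low : Bool := false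
  /-- The ranges of the abscissa. -/
  pieces : List Piece
  /-- The remainder. -/
  terms : List Term

/-- A corner of the two intervals of constants. -/
inductive Corner | ll | lh | hl | hh

/-- The excess over the limit of the multiplier, at a corner. -/
def Corner.shift : Corner → ℚ
  | .ll | .lh => 229 / 200
  | .hl | .hh => 7 / 5

/-- The line of `1 / arc` at a corner: the constant. -/
def Corner.ic0 : Corner → Piece → ℚ
  | .ll, P | .hl, P => P.lo0
  | .lh, P | .hh, P => P.hi0

/-- The line of `1 / arc` at a corner: the slope. -/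
def Corner.ic1 : Corner → Piece → ℚ
  | .ll, P | .hl, P => P.lo1
  | .lh, P | .hh, P => P.hi1

section

variable {α : Type} [Add α] [Sub α] [Mul α] [Pow α ℕ] (C : ℚ → α) (d : Data)

/-- `1 - s ^ 2`. -/
def cz (y e : α) : α := C 1 - y * e

/-- The multiplier of the shadow. -/
def gg (e : α) : α := C (2 * d.n0) + C d.g1 * e

/-- The multiplier of the excess, below and above. -/
def nu (i : Corner) (e : α) : α := C (d.n0 - 3 / 8) + C (d.n1 + i.shift) * e

/-- A line of `1 / arc`. -/
def ic (i : Corner) (P : Piece) (y e : α) : α := C (i.ic0 P) + C (i.ic1 P) * (y * e)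

/-- The linear potential left in the coefficient of `v - 1`. -/
def elam (y e : α) : α := e * (C d.l0 + C d.l1 * y)

/-- The linear coefficient in `t - s`, times `(1 - z) e / s`. -/
def slope (i : Corner) (P : Piece) (y e : α) : α :=
  (C 1 - e) * (gg C d e * ic C i P y e) +
    e * (C (2 * d.l1) * cz C y e - C d.l0 - C d.l1 * y) -
    C 2 * (C 1 + C 3 * e) * (C d.n0 + C d.n1 * e) * cz C y e

/-- The coefficient of `((t - s) / s) ^ 2`. -/
def bsq (i : Corner) (y e : α) : α :=
  C d.a * (y + y * e + C 1) - nu C d i e * (y + C 3 * (y * e)) * C (d.g ^ 2)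

/-- Its part in `1 / v`. -/
def bdiv (i : Corner) (y e : α) : α := C (2 * d.g * (1 + d.g)) * (nu C d i e * (y * e))

/-- The remainder, times `e ^ 2`. -/
def rest (y e : α) : List Term → α
  | [] => C 0
  | T :: L => C T.c * (y ^ (T.j + T.k) * e ^ (T.k + 2)) + rest y e L

/-- The coefficient of `u ^ 2 / v` after the split, up to `v1`. -/
def lead (i : Corner) (P : Piece) (y e : α) : α :=
  C (1 + d.g) * nu C d i e *
      (C 2 * cz C y e - C ((1 - d.g) ^ 2 / (2 * d.g * d.phi)) * (y * e)) -
    gg C d e * ic C i P y e * C ((2 * d.v1 + 1) / (2 * (d.v1 + 2)))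

/-- The coefficient of `((t - s) / s) ^ 2` up to `v1`. -/
def bnear (i : Corner) (y e : α) : α :=
  bsq C d i y e + C ((1 - d.phi) / d.v1) * bdiv C d i y e

/-- The coefficient of `u ^ 2` up to `v1`, times that of the square. -/
def vertex (i : Corner) (P : Piece) (y e : α) : α :=
  lead C d i P y e * C (1 / d.v1) * bnear C d i y e - C (d.a ^ 2) * cz C y e ^ 2

/-- The vertex claim up to `v1`. -/
def nearClaim (i : Corner) (P : Piece) (y e : α) : α :=
  vertex C d i P y e *
      (C 4 * rest C y e d.terms * bnear C d i y e * cz C y e ^ 2 -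
        (y * slope C d i P y e) ^ 2) -
    cz C y e ^ 2 * (elam C d y e * bnear C d i y e + C d.a * (y * slope C d i P y e)) ^ 2

/-- The numerator of the shadow at `w = v (1 - z)`, below one or in general. -/
def shadN (low : Bool) (c w : α) : α := bif low then C 17 * w + C 4 * c else C 2 * w + c

/-- Its denominator. -/
def shadD (low : Bool) (c w : α) : α :=
  bif low then C 20 * w + C 22 * c else C 2 * (w + C 2 * c)

/-- The exact claim at `1 / r = w / (1 - z)`. -/
def whole (low : Bool) (i : Corner) (P : Piece) (y e w : α) : α :=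
  C 4 * cz C y e * (bsq C d i y e * w + bdiv C d i y e * cz C y e) *
      (shadD C low (cz C y e) w * w *
          (rest C y e d.terms * cz C y e + elam C d y e * (w - cz C y e)) +
        (C (2 * (1 + d.g)) * nu C d i e * cz C y e * shadD C low (cz C y e) w -
            gg C d e * ic C i P y e * shadN C low (cz C y e) w) * (w - cz C y e) ^ 2) -
    shadD C low (cz C y e) w *
      (y * slope C d i P y e * w +
        cz C y e * (C (2 * (1 - d.g ^ 2)) * (nu C d i e * (y * e)) - C (2 * d.a) * w) *
          (w - cz C y e)) ^ 2

/-- The line above `(1 - z) / r`. -/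
def wtop (P : Piece) (y e : α) : α := C P.w0 + C P.w1 * (y * (C 1 + C 2 * e))

/-- The claim beyond the vertex, beyond one, or on the whole range. -/
def farClaim (i : Corner) (P : Piece) (y e s : α) : α :=
  whole C d false i P y e
    (bif P.near then C d.v1 * cz C y e + s * (wtop C P y e - C d.v1 * cz C y e)
      else bif d.low then cz C y e + s * (wtop C P y e - cz C y e)
      else s * wtop C P y e)

/-- The claim up to `v = 1`, with the second shadow. -/
def lowClaim (i : Corner) (P : Piece) (y e s : α) : α :=
  whole C d true i P y e (s * cz C y e)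

end

open P100.Bernstein

/-- A rational as an expression. -/
def ofRat (q : ℚ) : Expr := .frac q.num q.den

/-- An interval with rational ends. -/
def between (a b : ℚ) : Iv := ⟨a.num * b.den, b.num * a.den, a.den * b.den⟩

/-- The box of a piece. -/
def box2 (d : Data) (P : Piece) : List Iv := [between (P.xa ^ 2) (P.xb ^ 2), between (1 / d.mhi) P.eh]

/-- The box of a piece, with the third variable. -/
def box3 (d : Data) (P : Piece) : List Iv :=
  [between (P.xa ^ 2) (P.xb ^ 2), between (1 / d.mhi) P.eh, ⟨0, 1, 1⟩]

end Vale.Agent.P237.Petty.Cor.Mid50
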