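import Vale.Agent.P237.Petty.Cor.Mid50.Point
import Vale.Agent.P237.Petty.Cor.Top.Tail

/-!
# P237: the cancelled cell for middle orders beyond the pieces

For `121 / 16 ≤ (p + 3) s ^ 2` the part without weight is at least a constant times `-(p + 1) / arc s ^ 4`.
-/

namespace Vale.Agent.P237.Petty.Cor.Mid50

open Set
open Ident (half)

variable {p : ℕ} {d : Data}

/-- Above the multiplier of the shadow. -/
def gTop (d : Data) : ℚ := |2 * d.n0| + |d.g1| / d.mlo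

/-- Above the multiplier of the excess. -/
def nuTop (d : Data) : ℚ := |d.n0 - 3 / 8| + |d.n1 + 7 / 5| / d.mlo

/-- Above the constant of the excess in the slope. -/
def nTop (d : Data) : ℚ := |d.n0| + |d.n1| / d.mlo

/-- Above `(1 - s ^ 2) / r`, over `√(p + 1)`. -/
def vTop (d : Data) : ℚ := d.ev * d.hk * (7 / 6)

/-- Above the part of the slope without `1 / arc`. -/
def slopeRest (d : Data) : ℚ :=
  (2 * |d.l1| + |d.l0|) / d.mlo + |d.l1| + 2 * (1 + 3 / d.mlo) * nTop d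

/-- Above the part of the potential without `1 / arc`. -/
def potRest (d : Data) : ℚ := |d.l0| / d.mlo + |d.l1|

/-- Above `arc s` beyond the pieces. -/
def arcTop (d : Data) : ℚ := (13 / 20 + (1 - d.z2) / (13 / 20)) / 2

/-- The factor of the crude bound. -/
def tailFactor (d : Data) : ℚ :=
  gTop d * arcTop d ^ 3 + (gTop d * arcTop d + slopeRest d * arcTop d ^ 2) +
    (10 * nuTop d / d.mlo + d.a * vTop d ^ 2) * arcTop d ^ 4 +
    (gTop d * arcTop d + potRest d * arcTop d ^ 2) * vTop d / 4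

theorem arc_le_arcTop {s : ℝ} (hs : s ∈ Ioo (0 : ℝ) 1) (hz : (d.z2 : ℝ) ≤ s ^ 2) :
    arc s ≤ (arcTop d : ℝ) := by
  have h2 : arc s ^ 2 = 1 - s ^ 2 := Real.sq_sqrt (by nlinarith [hs.1, hs.2])
  simp only [arcTop]
  push_cast
  rw [le_div_iff₀ two_pos, ← sub_le_iff_le_add', le_div_iff₀ (by norm_num)]
  nlinarith [sq_nonneg (arc s - 13 / 20)]

/-- Lower powers of `1 / arc` are small against the fourth. -/
theorem div_pow_le_top {A m c : ℝ} (hm : 0 ≤ m) (hc : 0 < c) (hA : c ≤ A) {k : ℕ} (hk : k ≤ 4) :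
    m / c ^ k ≤ A ^ (4 - k) * (m / c ^ 4) := by
  have e : m / c ^ k = c ^ (4 - k) * (m / c ^ 4) := by
    have e4 : c ^ 4 = c ^ (4 - k) * c ^ k := by rw [← pow_add, Nat.sub_add_cancel hk]
    rw [e4]
    field_simp
  rw [e]
  exact mul_le_mul_of_nonneg_right (pow_le_pow_left₀ hc.le hA _) (by positivity)

theorem abs_affine_le {c b : ℚ} {e : ℝ} (he : e ∈ Icc (1 / (d.mhi : ℝ)) (1 / (d.mlo : ℝ))) :
    |(c : ℝ) + b * e| ≤ ((|c| + |b| / d.mlo : ℚ) : ℝ) := by
  push_cast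
  refine (abs_add_le _ _).trans ?_
  rw [abs_mul, abs_of_nonneg (le_trans (by positivity) he.1), div_eq_mul_one_div |(b : ℝ)|]
  exact add_le_add le_rfl (mul_le_mul_of_nonneg_left he.2 (abs_nonneg _))

/-- `(1 - s ^ 2) |1 / r - 1|` beyond the centre. -/
theorem dev_le (D : DataFacts d) (hp : InRange d p) {ell s t a r q : ℝ}
    (h : FlatState p ell s t a r q) (h0 : 0 ≤ ell)
    (hE : Real.exp ell ≤ d.ev) (hs5 : 121 / 16 ≤ ((p : ℝ) + 3) * s ^ 2) :
    (1 - s ^ 2) * |1 / r - 1| ≤ vTop d * √((p : ℝ) + 1) := by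
  have hs := h.state.s_mem
  obtain ⟨h17, hlo, -, hp'⟩ := hp.cast
  set X := √((p : ℝ) + 3) * s with hX
  have hX0 : 0 ≤ X := mul_nonneg (Real.sqrt_nonneg _) hs.1.le
  have hX3 : 11 / 4 ≤ X := by
    refine (pow_le_pow_iff_left₀ (by norm_num) hX0 two_ne_zero).1 ?_
    rw [hX, mul_pow, Real.sq_sqrt (by positivity)]
    linarith
  have hE1 : 1 ≤ (d.ev : ℝ) := (Real.one_le_exp h0).trans hE
  have hH : half (p + 1) * √((p : ℝ) + 3) ≤ (d.hk : ℝ) :=
    Top.half_mul_sqrt_le (m0 := d.mlo) (by linarith) hlo (by linarith [D.hk_ge.1]) D.hk_ge.2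
  have hh : (0 : ℝ) < d.hk := by linarith [D.hk_ge.1]
  have hb := inv_rate_le_rat h h0 hE hH le_rfl zero_le_one hX0
    (K := d.ev * d.hk) (by positivity) (by norm_num)
  set m := (p : ℝ) + 1 with hm
  have hm0 : 0 < m := by positivity
  have hsm : 4 ≤ √m := Real.le_sqrt_of_sq_le (by linarith)
  have hX1 : X + 2 / 5 ≤ 7 / 6 * √m := by
    have h1 : X ≤ √((p : ℝ) + 3) := mul_le_of_le_one_right (Real.sqrt_nonneg _) hs.2.le
    have h2 : √((p : ℝ) + 3) ≤ √m + 1 / 4 := by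
      rw [Real.sqrt_le_left (by positivity)]
      nlinarith [Real.sq_sqrt hm0.le]
    linarith
  have hM : (d.ev : ℝ) * d.hk / millsRat X ≤ d.ev * d.hk * (X + 2 / 5) := by
    have hN : 0 < X + 5 / 4 := by linarith
    rw [millsRat, div_div_eq_mul_div, div_le_iff₀ hN, mul_assoc ((d.ev : ℝ) * d.hk)]
    refine mul_le_mul_of_nonneg_left ?_ (by positivity)
    linarith
  have hU : (d.ev : ℝ) * d.hk * (X + 2 / 5) ≤ vTop d * √m := by
    simp only [vTop]
    push_cast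
    linarith [mul_le_mul_of_nonneg_left hX1 (show 0 ≤ (d.ev : ℝ) * d.hk by positivity)]
  have hEU : (d.ev : ℝ) ≤ vTop d * √m := by
    refine le_trans ?_ hU
    rw [mul_assoc]
    refine le_mul_of_one_le_right (by linarith) ?_
    have : (1 : ℝ) ≤ d.hk := D.hk_ge.1
    nlinarith
  have hv : (1 - s ^ 2) / r ≤ vTop d * √m := hb.trans (max_le hEU (hM.trans hU))
  have hz : 0 ≤ 1 - s ^ 2 := by nlinarith [hs.1, hs.2]
  have hz1 : 1 - s ^ 2 ≤ 1 := by nlinarith
  have hr : 0 < 1 / r := one_div_pos.2 h.state.rate_pos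
  rw [div_eq_mul_one_div] at hv
  rw [← abs_of_nonneg hz, ← abs_mul, abs_le]
  constructor <;> nlinarith [mul_nonneg hz hr.le]

theorem cancelD_slope {s t : ℝ} (hs : s ∈ Ioo (0 : ℝ) 1) :
    cancelD p (nuM p d) (potK p d) (potK' p d) s * (t - s) =
      ((p : ℝ) + 1) * slopeAt d (√((p : ℝ) + 1) * s) (1 / ((p : ℝ) + 1)) (1 / arc s) /
        (1 - s ^ 2) * (s * (t - s)) := by
  have h0 : 0 < 1 - s ^ 2 := by nlinarith [hs.1, hs.2]
  have hc : 0 < arc s := Real.sqrt_pos.2 h0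
  have hc2 : arc s ^ 2 = 1 - s ^ 2 := Real.sq_sqrt h0.le
  obtain ⟨m, hm, hmp⟩ : ∃ m : ℝ, 0 < m ∧ (p : ℝ) + 1 = m := ⟨_, by positivity, rfl⟩
  have hx : (√((p : ℝ) + 1) * s) ^ 2 = m * s ^ 2 := by
    rw [mul_pow, Real.sq_sqrt (by positivity), hmp]
  have hz : m * s ^ 2 * (1 / m) = s ^ 2 := by field_simp
  have h4 : ((p : ℝ) + 4) ≠ 0 := by positivity
  have e1 : sqCoef p + ((p : ℝ) + 4) * (nuM p d - nuS p) =
      ((p : ℝ) + 4) * ((d.n0 : ℝ) + d.n1 * (1 / ((p : ℝ) + 1))) := by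
    rw [nuM, nuS, sqCoef]
    field_simp
    ring
  rw [cancelD, e1, potRate, potK, potK', slopeAt, hx, hmp, hz,
    show (p : ℝ) + 4 = m + 3 by linarith, ← hc2]
  have := hs.1.ne'
  field_simp
  ring

/-- The slope, crude. -/
theorem slope_le (hp : InRange d p) {s : ℝ} (hs : s ∈ Ioo (0 : ℝ) 1) :
    |slopeAt d (√((p : ℝ) + 1) * s) (1 / ((p : ℝ) + 1)) (1 / arc s)| ≤
      (gTop d : ℝ) * (1 / arc s) + (slopeRest d : ℝ) := by
  have he := e_mem hp
  set e := 1 / ((p : ℝ) + 1) with hed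
  have he0 : 0 ≤ e := le_trans (by positivity) he.1
  have hxz : (√((p : ℝ) + 1) * s) ^ 2 * e = s ^ 2 := by
    rw [hed, mul_pow, Real.sq_sqrt (by positivity)]; field_simp
  have hc : 0 < arc s := arc_pos ⟨by linarith [hs.1], hs.2⟩
  have hi : 1 ≤ 1 / arc s := by
    rw [le_div_iff₀ hc, one_mul]
    exact Real.sqrt_le_one.2 (by nlinarith [hs.1])
  have hz : s ^ 2 ∈ Icc (0 : ℝ) 1 := ⟨sq_nonneg _, by nlinarith [hs.1, hs.2]⟩
  have hG : |gg toReal d e| ≤ (gTop d : ℝ) := by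
    simpa [gg, toReal, gTop] using abs_affine_le (c := 2 * d.n0) (b := d.g1) he
  have hN : |(d.n0 : ℝ) + d.n1 * e| ≤ (nTop d : ℝ) := abs_affine_le he
  have hG0 : 0 ≤ (gTop d : ℝ) := (abs_nonneg _).trans hG
  have hN0 : 0 ≤ (nTop d : ℝ) := (abs_nonneg _).trans hN
  have t1 : |(1 - e) * (gg toReal d e * (1 / arc s))| ≤ (gTop d : ℝ) * (1 / arc s) := by
    rw [abs_mul, abs_mul, abs_of_pos (one_div_pos.2 hc)]
    refine (mul_le_of_le_one_left (by positivity) ?_).trans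
      (mul_le_mul_of_nonneg_right hG (by positivity))
    rw [abs_le]; constructor <;>
      linarith [he.2, one_div_le_one_div_of_le (show (0 : ℝ) < 19 by norm_num) hp.cast.1]
  have t2 : |e * (2 * (d.l1 : ℝ) * (1 - s ^ 2) - d.l0) - d.l1 * s ^ 2| ≤
      (2 * |(d.l1 : ℝ)| + |(d.l0 : ℝ)|) / (d.mlo : ℝ) + |(d.l1 : ℝ)| := by
    refine (abs_sub _ _).trans (add_le_add ?_ ?_)
    · rw [abs_mul, abs_of_nonneg he0, div_eq_mul_one_div, mul_comm e]
      refine mul_le_mul ((abs_sub _ _).trans (add_le_add ?_ le_rfl)) he.2 he0 (by positivity)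
      rw [abs_mul, abs_mul, abs_two, abs_of_nonneg (show 0 ≤ 1 - s ^ 2 by linarith [hz.2])]
      exact mul_le_of_le_one_right (by positivity) (by linarith [hz.1])
    · rw [abs_mul, abs_of_nonneg hz.1]
      exact mul_le_of_le_one_right (abs_nonneg _) hz.2
  have t3 : |2 * (1 + 3 * e) * ((d.n0 : ℝ) + d.n1 * e) * (1 - s ^ 2)| ≤
      2 * (1 + 3 / (d.mlo : ℝ)) * (nTop d : ℝ) := by
    rw [abs_mul, abs_of_nonneg (show 0 ≤ 1 - s ^ 2 by linarith [hz.2])]
    refine (mul_le_of_le_one_right (abs_nonneg _) (by linarith [hz.1])).trans ?_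
    rw [abs_mul, abs_of_nonneg (show 0 ≤ 2 * (1 + 3 * e) by positivity)]
    exact mul_le_mul (by linarith [he.2, mul_one_div (3 : ℝ) (d.mlo : ℝ)]) hN (abs_nonneg _) (by positivity)
  simp only [slopeAt, slopeRest]
  push_cast
  rw [show e * (2 * (d.l1 : ℝ) * (1 - (√((p : ℝ) + 1) * s) ^ 2 * e) - d.l0 -
      d.l1 * (√((p : ℝ) + 1) * s) ^ 2) =
      e * (2 * (d.l1 : ℝ) * (1 - s ^ 2) - d.l0) - d.l1 * s ^ 2 by rw [← hxz]; ring, hxz]
  rw [abs_le] at t1 t2 t3 ⊢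
  constructor <;> linarith

/-- The potential, crude. -/
theorem potK_le (hp : InRange d p) {s : ℝ} (hs : s ∈ Ioo (0 : ℝ) 1) :
    |potK p d s| ≤ (gTop d : ℝ) / arc s + (potRest d : ℝ) := by
  have he := e_mem hp
  have hc : 0 < arc s := arc_pos ⟨by linarith [hs.1], hs.2⟩
  have hm := hp.cast.2.1
  have hG : |gg toReal d (1 / ((p : ℝ) + 1))| ≤ (gTop d : ℝ) := by
    simpa [gg, toReal, gTop] using abs_affine_le (c := 2 * d.n0) (b := d.g1) he
  simp only [potRest]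
  push_cast
  rw [potK, ← add_assoc]
  refine (abs_add_three _ _ _).trans (add_le_add (add_le_add ?_ ?_) ?_)
  · rw [abs_div, abs_neg, abs_of_pos hc]
    exact div_le_div_of_nonneg_right hG hc.le
  · rw [abs_div, abs_of_pos (show (0 : ℝ) < (p : ℝ) + 1 by positivity)]
    exact div_le_div_of_nonneg_left (abs_nonneg _) (by linarith [hp.cast.1]) hm
  · rw [abs_mul, abs_of_nonneg (sq_nonneg s)]
    exact mul_le_of_le_one_right (abs_nonneg _) (pow_le_one₀ hs.1.le hs.2.le)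

/-- The shadow, crude. -/
theorem shadow_part (D : DataFacts d) (hp : InRange d p) {ell s t a r q : ℝ}
    (h : FlatState p ell s t a r q) (hA : arc s ≤ (arcTop d : ℝ)) :
    -((gTop d : ℝ) * (arcTop d : ℝ) ^ 3 * (((p : ℝ) + 1) / arc s ^ 4)) ≤
      gamM p d * Ident.b0 p * (1 / a - 1 / arc s) := by
  have hc := h.state.arc_pos'
  have he := e_mem hp
  have hb := Ident.b0_pos p
  set e := 1 / ((p : ℝ) + 1) with hed
  set m := (p : ℝ) + 1 with hmd
  have hm : 0 < m := by positivity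
  have hG : |gg toReal d e| ≤ (gTop d : ℝ) := by
    simpa [gg, toReal, gTop] using abs_affine_le (c := 2 * d.n0) (b := d.g1) he
  have hG0 : 0 ≤ gg toReal d e := D.gg_nonneg _ he
  have e1 : gamM p d * Ident.b0 p = gg toReal d e * m := by
    rw [gamM]; field_simp; rw [← hed, ← hmd]; ring
  rw [e1]
  have h1 := div_pow_le_top hm.le hc hA (k := 1) (by norm_num)
  rw [pow_one, show 4 - 1 = 3 by norm_num] at h1
  have h2 := mul_le_mul ((le_abs_self _).trans hG) h1 (by positivity) ((abs_nonneg _).trans hG)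
  have e2 : gg toReal d e * m * (1 / a - 1 / arc s) =
      gg toReal d e * m * (1 / a) - gg toReal d e * (m / arc s) := by ring
  rw [e2]
  linarith [mul_nonneg (mul_nonneg hG0 hm.le) (one_div_nonneg.2 h.state.pos.le)]

/-- The slope part, crude. -/
theorem slope_part (hp : InRange d p) {s t : ℝ} (hs : s ∈ Ioo (0 : ℝ) 1)
    (ht : t ∈ Ioo (0 : ℝ) 1) (hA : arc s ≤ (arcTop d : ℝ)) :
    -(((gTop d : ℝ) * (arcTop d : ℝ) + (slopeRest d : ℝ) * (arcTop d : ℝ) ^ 2) *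
        (((p : ℝ) + 1) / arc s ^ 4)) ≤
      cancelD p (nuM p d) (potK p d) (potK' p d) s * (t - s) := by
  rw [cancelD_slope hs]
  have hc : 0 < arc s := arc_pos ⟨by linarith [hs.1], hs.2⟩
  have hc2 : arc s ^ 2 = 1 - s ^ 2 := Real.sq_sqrt (by nlinarith [hs.1, hs.2])
  set m := (p : ℝ) + 1 with hmd
  have hm : 0 < m := by positivity
  have hS := slope_le (d := d) hp hs
  rw [← hmd] at hS
  have hG0 : 0 ≤ (gTop d : ℝ) := by simp only [gTop]; push_cast; positivity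
  have hR0 : 0 ≤ (slopeRest d : ℝ) := by simp only [slopeRest, nTop]; push_cast; positivity
  refine (abs_le.1 ?_).1
  rw [abs_mul, abs_div, abs_mul, abs_of_nonneg hm.le, ← hc2, abs_of_nonneg (sq_nonneg (arc s))]
  refine (mul_le_of_le_one_right (by positivity) (Top.abs_mul_sub_le hs ht)).trans ?_
  refine (div_le_div_of_nonneg_right (mul_le_mul_of_nonneg_left hS hm.le) (sq_nonneg _)).trans ?_
  have e : m * ((gTop d : ℝ) * (1 / arc s) + slopeRest d) / arc s ^ 2 =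
      gTop d * (m / arc s ^ 3) + slopeRest d * (m / arc s ^ 2) := by field_simp
  rw [e]
  have h3 := mul_le_mul_of_nonneg_left (div_pow_le_top hm.le hc hA (k := 3) (by norm_num)) hG0
  have h2 := mul_le_mul_of_nonneg_left (div_pow_le_top hm.le hc hA (k := 2) (by norm_num)) hR0
  rw [show 4 - 3 = 1 by norm_num, pow_one] at h3
  linarith

/-- The potential part, crude. -/
theorem pot_part (hp : InRange d p) {s u : ℝ} (hs : s ∈ Ioo (0 : ℝ) 1)
    (hU : (1 - s ^ 2) * |u| ≤ vTop d * √((p : ℝ) + 1)) (hA : arc s ≤ (arcTop d : ℝ)) :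
    -(((gTop d : ℝ) * (arcTop d : ℝ) + (potRest d : ℝ) * (arcTop d : ℝ) ^ 2) * vTop d / 4 *
        (((p : ℝ) + 1) / arc s ^ 4)) ≤ potK p d s * u := by
  have hc : 0 < arc s := arc_pos ⟨by linarith [hs.1], hs.2⟩
  have hc2 : arc s ^ 2 = 1 - s ^ 2 := Real.sq_sqrt (by nlinarith [hs.1, hs.2])
  have hm : 19 ≤ (p : ℝ) + 1 := hp.cast.1.trans hp.cast.2.1
  set m := (p : ℝ) + 1 with hmd
  refine (abs_le.1 ?_).1
  have hK := potK_le (d := d) hp hs
  have hG0 : 0 ≤ (gTop d : ℝ) := by simp only [gTop]; push_cast; positivity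
  have hR0 : 0 ≤ (potRest d : ℝ) := by simp only [potRest]; push_cast; positivity
  have hV : |u| ≤ vTop d * √m / arc s ^ 2 := by
    rw [le_div_iff₀ (pow_pos hc 2), hc2]
    linarith [hU]
  have hV0 : 0 ≤ (vTop d : ℝ) * √m := by
    have := (abs_nonneg _).trans hV
    rwa [le_div_iff₀ (pow_pos hc 2), zero_mul] at this
  rw [abs_mul]
  refine (mul_le_mul hK hV (abs_nonneg _) (add_nonneg (div_nonneg hG0 hc.le) hR0)).trans ?_
  have h7 : √m ≤ m / 4 := by
    nlinarith [Real.sq_sqrt (show 0 ≤ m by linarith),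
      Real.le_sqrt_of_sq_le (show (4 : ℝ) ^ 2 ≤ m by linarith)]
  have hv0 : 0 ≤ (vTop d : ℝ) :=
    nonneg_of_mul_nonneg_left hV0 (Real.sqrt_pos.2 (by linarith))
  refine (mul_le_mul_of_nonneg_left (div_le_div_of_nonneg_right
    (mul_le_mul_of_nonneg_left h7 hv0) (sq_nonneg _)) (by positivity)).trans ?_
  have e : ((gTop d : ℝ) / arc s + potRest d) * (vTop d * (m / 4) / arc s ^ 2) =
      vTop d / 4 * (gTop d * (m / arc s ^ 3) + potRest d * (m / arc s ^ 2)) := by field_simp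
  rw [e]
  have h3 := mul_le_mul_of_nonneg_left
    (div_pow_le_top (show 0 ≤ m by linarith) hc hA (k := 3) (by norm_num)) hG0
  have h2 := mul_le_mul_of_nonneg_left
    (div_pow_le_top (show 0 ≤ m by linarith) hc hA (k := 2) (by norm_num)) hR0
  rw [show 4 - 3 = 1 by norm_num, pow_one] at h3
  linarith [mul_le_mul_of_nonneg_left (add_le_add h3 h2) (div_nonneg hv0 (by norm_num : (0 : ℝ) ≤ 4))]

/-- The crude bound. -/
theorem tail_ge (D : DataFacts d) (hp : InRange d p) {ell s t a r q : ℝ}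
    (h : FlatState p ell s t a r q) (h0 : 0 ≤ ell) (hE : Real.exp ell ≤ d.ev)
    (hs5 : 121 / 16 ≤ ((p : ℝ) + 3) * s ^ 2) (hz2 : (d.z2 : ℝ) ≤ s ^ 2) :
    ell * wS p (arc s) - (tailFactor d : ℝ) * (((p : ℝ) + 1) / arc s ^ 4) ≤
      cancelExpr p (gamM p d) (nuM p d) ell (fun s t => s + (d.g : ℝ) * (s - t))
        (fun _ _ => 1 + (d.g : ℝ)) (fun _ _ => -(d.g : ℝ)) (quadPot (potK p d) (potB d))
        (quadPotS (potK p d) (potK' p d) (potB d) (potB' d))
        (quadPotT (potK p d) (potB d)) s t a r := by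
  have hs := h.state.s_mem
  have ht := h.state.t_mem
  have hr := h.state.rate_pos
  have hc := h.state.arc_pos'
  have hc1 : arc s ≤ 1 := Real.sqrt_le_one.2 (by nlinarith [hs.1])
  have hc2 : arc s ^ 2 = 1 - s ^ 2 := Real.sq_sqrt (by nlinarith [hs.1, hs.2])
  have he := e_mem hp
  set e := 1 / ((p : ℝ) + 1) with hed
  set m := (p : ℝ) + 1 with hmd
  have hm17 := hp.cast.1
  have hm : (d.mlo : ℝ) ≤ m := hp.cast.2.1
  have hm0 : m ≠ 0 := by linarith
  have hem : m * e = 1 := by rw [hed]; field_simp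
  set M := m / arc s ^ 4 with hM
  have hA := arc_le_arcTop (d := d) hs hz2
  have hM0 : m ≤ (arcTop d : ℝ) ^ 4 * M := by
    have := div_pow_le_top (show 0 ≤ m by linarith) hc hA (k := 0) (by norm_num)
    simpa using this
  have hb := Ident.b0_pos p
  have hG : |gg toReal d e| ≤ (gTop d : ℝ) := by
    simpa [gg, toReal, gTop] using abs_affine_le (c := 2 * d.n0) (b := d.g1) he
  have hG0 : 0 ≤ gg toReal d e := D.gg_nonneg _ he
  have hn0 := nuM_nonneg D hp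
  have hn1 : nuM p d ≤ (nuTop d : ℝ) := by
    refine (nuM_mem hp).2.trans ?_
    have := (abs_le.1 (abs_affine_le (c := d.n0 - 3 / 8) (b := d.n1 + 7 / 5) he)).2
    simp only [nuTop]
    simpa [nu, Corner.shift, toReal, hed, hmd] using this
  have hU := dev_le D hp h h0 hE hs5
  rw [Top.cancelExpr_eq _ _ _ _ _ _ _ _ _ _ _ hr.ne',
    show potB' d s - potRate p s * potB d s = (d.a : ℝ) * ((p : ℝ) + 2 + 1 / s ^ 2) from
      (polePot_null p (d.a : ℝ) hs).2]
  have hnu : nuM p d * (d.g : ℝ) ^ 2 * ((p : ℝ) + 4) ≤ (d.a : ℝ) * m := by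
    have h3 := D.gap _ he
    have h4 : nuM p d ≤ (d.n0 : ℝ) - 3 / 8 + ((d.n1 : ℝ) + 7 / 5) * e := by
      refine (nuM_mem hp).2.trans (le_of_eq ?_)
      simp only [nu, Corner.shift, toReal, hed, hmd]
      push_cast
      ring
    have := mul_le_mul_of_nonneg_right (mul_le_mul_of_nonneg_right h4
      (show 0 ≤ (1 + 3 * e) * (d.g : ℝ) ^ 2 by positivity)) (show 0 ≤ m by linarith)
    have := mul_le_mul_of_nonneg_right h3 (show 0 ≤ m by linarith)
    rw [show (p : ℝ) + 4 = m * (1 + 3 * e) by rw [hed]; field_simp; ring]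
    linarith
  -- the parts
  have p1 : -(10 * (nuTop d : ℝ)) - nuM p d * (d.g : ℝ) ^ 2 * ((p : ℝ) + 4) * (t - s) ^ 2 ≤
      nuM p d * testDef p d.g s t r := by
    refine le_trans ?_ (mul_le_mul_of_nonneg_left
      (Top.testDef_ge D.g_pos.le D.g_le hs ht.2.le hr) hn0)
    have h2 := Top.abs_mul_sub_le hs ht
    have hg2 : 0 ≤ 1 - (d.g : ℝ) ^ 2 := by nlinarith [D.g_pos, D.g_le]
    have := mul_le_mul_of_nonneg_left (abs_le.1 h2).1 hg2
    have := mul_le_mul_of_nonneg_left (show -10 ≤ -8 + 2 * (1 - (d.g : ℝ) ^ 2) * (s * (t - s)) by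
      linarith [sq_nonneg (d.g : ℝ)]) hn0
    linarith
  have p2 := shadow_part D hp h hA
  have p3 := slope_part (d := d) hp hs ht hA
  have p4 : -((d.a : ℝ) / s ^ 2 * (t - s) ^ 2) - (d.a : ℝ) * ((1 - s ^ 2) * |1 / r - 1|) ^ 2 ≤
      2 * potB d s * ((1 / r - 1) * (t - s)) := by
    have h1 := hs.1.ne'
    have e4 : 2 * potB d s * ((1 / r - 1) * (t - s)) + (d.a : ℝ) / s ^ 2 * (t - s) ^ 2 +
        (d.a : ℝ) * (1 - s ^ 2) ^ 2 * (1 / r - 1) ^ 2 =
        (d.a : ℝ) * ((t - s) / s - (1 - s ^ 2) * (1 / r - 1)) ^ 2 := by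
      rw [potB]; field_simp; ring
    rw [mul_pow _ |1 / r - 1|, sq_abs]
    linarith [mul_nonneg D.a_pos.le (sq_nonneg ((t - s) / s - (1 - s ^ 2) * (1 / r - 1)))]
  have p5 : (d.a : ℝ) * ((1 - s ^ 2) * |1 / r - 1|) ^ 2 ≤ (d.a : ℝ) * (vTop d : ℝ) ^ 2 * ((arcTop d : ℝ) ^ 4 * M) := by
    refine (mul_le_mul_of_nonneg_left (pow_le_pow_left₀ (mul_nonneg ?_ (abs_nonneg _)) hU 2)
      D.a_pos.le).trans ?_
    · rw [← hc2]; exact sq_nonneg _
    rw [mul_pow, Real.sq_sqrt (by linarith), mul_assoc]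
    exact mul_le_mul_of_nonneg_left (mul_le_mul_of_nonneg_left hM0 (sq_nonneg _)) D.a_pos.le
  have p6 := pot_part hp hs hU hA
  have p7 : 10 * (nuTop d : ℝ) ≤ 10 * (nuTop d : ℝ) / (d.mlo : ℝ) * ((arcTop d : ℝ) ^ 4 * M) := by
    rw [div_mul_eq_mul_div, le_div_iff₀ (by linarith)]
    exact mul_le_mul_of_nonneg_left (by linarith) (by linarith)
  have p8 : nuM p d * (d.g : ℝ) ^ 2 * ((p : ℝ) + 4) * (t - s) ^ 2 +
      (d.a : ℝ) / s ^ 2 * (t - s) ^ 2 ≤
      (d.a : ℝ) * ((p : ℝ) + 2 + 1 / s ^ 2) * (t - s) ^ 2 := by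
    have := mul_le_mul_of_nonneg_right hnu (sq_nonneg (t - s))
    have := mul_nonneg D.a_pos.le (sq_nonneg (t - s))
    rw [show (d.a : ℝ) * ((p : ℝ) + 2 + 1 / s ^ 2) * (t - s) ^ 2 =
      (d.a : ℝ) * (m + 1) * (t - s) ^ 2 + (d.a : ℝ) / s ^ 2 * (t - s) ^ 2 by rw [hmd]; ring]
    linarith
  simp only [tailFactor]
  push_cast at p6 ⊢
  linarith

end Vale.Agent.P237.Petty.Cor.Mid50
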